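import Vale.Agent.P253.H502.Nonexp
import Vale.Agent.P253.U165.Final

/-!
P253: uniformization if the Lie derivative of the metric along `-JX` is nonnegative everywhere
(no condition on the curvature at the fixed point).
-/

open scoped Manifold ContDiff Topology Bundle ENNReal
open Set Metric Complex Filter Bundle IsManifold Manifold Vale.Agent.P253.Mfd
  Vale.Agent.P253.U165

set_option maxSynthPendingDepth 3
set_option linter.unusedSectionVars false

noncomputable section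

namespace Vale.Agent.P253.H502

variable {E : Type*} [NormedAddCommGroup E] [NormedSpace ℂ E] [FiniteDimensional ℂ E]
  {M : Type*} [MetricSpace M] [ChartedSpace E M]
  [IsManifold 𝓘(ℂ, E) 1 M] [IsManifold 𝓘(ℝ, E) ∞ M]
  [RiemannianBundle (fun x : M => TangentSpace 𝓘(ℝ, E) x)]
  [IsContMDiffRiemannianBundle 𝓘(ℝ, E) ∞ E (fun x : M => TangentSpace 𝓘(ℝ, E) x)]
  [IsRiemannianManifold 𝓘(ℝ, E) M]
  {ι : Type*} [Fintype ι] {ρ : ℝ → M → M} {Φ : ℝ → M → M} {p : M}

/-- An equivariant global holomorphic chart onto the model space is defined on all of `M`. -/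
theorem source_eq_univ_nonneg [ConnectedSpace M] (hK : IsKahler E M) (hρ : IsHolIsomFlow E ρ)
    (hS : BotNN E ρ)
    (hΦ0 : ∀ x, Φ 0 x = x) (hΦadd : ∀ s t x, Φ (s + t) x = Φ s (Φ t x))
    (hΦ : ∀ x, IsMIntegralCurve (I := 𝓘(ℝ, E)) (fun t => Φ t x) (W ρ))
    {e : OpenPartialHomeomorph M E}
    (he : e ∈ maximalAtlas 𝓘(ℂ, E) 1 M) (htgt : e.target = univ)
    (hps : p ∈ e.source) (hep : e p = 0) {φ : E ≃L[ℂ] (ι → ℂ)} {m : ι → ℝ} (hm : ∀ j, 0 < m j)
    (heq : ∀ (θ : ℝ) (z : E), ρ θ (e.symm z) = e.symm (LE φ m (θ * I) z)) :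
    e.source = univ := by
  have hT : ∀ z : E, z ∈ e.target := fun z => htgt ▸ mem_univ z
  have hequiv : ∀ θ : ℝ, ∀ x ∈ e.source,
      ρ θ x ∈ e.source ∧ e (ρ θ x) = LE φ m (θ * I) (e x) := by
    intro θ x hx
    have h1 := heq θ (e x)
    rw [e.left_inv hx] at h1
    rw [h1]
    exact ⟨e.map_target (hT _), e.right_inv (hT _)⟩
  have hflow : ∀ (t : ℝ) (z : E), Φ t (e.symm z) = e.symm (LE φ m t z) := by
    intro t z
    have hcurve : IsMIntegralCurve (I := 𝓘(ℝ, E)) (fun s : ℝ => e.symm (LE φ m s z)) (W ρ) := by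
      intro s
      have h1 : HasDerivAt (fun s : ℝ => LE φ m (s:ℂ) z) (vF ρ e (LE φ m (s:ℂ) z)) s := by
        rw [vF_linear hρ hequiv (hT _)]
        have h2 : HasDerivAt (fun s : ℝ => (s:ℂ)) 1 s := (hasDerivAt_id s).ofReal_comp
        have h3 := (hasDerivAt_LE (φ := φ) (m := m) (s:ℂ) z).scomp s h2
        rw [one_smul] at h3
        exact h3
      exact IntegralCurve.of_chart hρ he h1 (hT _)
    have h2 := isMIntegralCurve_Ioo_eq_of_contMDiff_boundaryless (t₀ := 0) (contMDiff_W hρ)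
      (hΦ (e.symm z)) hcurve (by simp [hΦ0, LE_zero])
    exact congrFun h2 t
  have hes0 : e.symm 0 = p := by rw [← hep, e.left_inv hps]
  have hconv : ∀ y ∈ e.source, Tendsto (fun t : ℝ => Φ (-t) y) atTop (𝓝 p) := by
    intro y hy
    have h1 : ∀ t : ℝ, Φ (-t) y = e.symm (LE φ m ((-t : ℝ) : ℂ) (e y)) := by
      intro t
      have h2 := hflow (-t) (e y)
      rwa [e.left_inv hy] at h2
    simp only [h1]
    have h3 : ContinuousAt e.symm 0 := e.continuousAt_symm (hT 0)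
    have h4 := (tendsto_LE_atBot hm (e y) (φ := φ)).comp tendsto_neg_atTop_atBot
    have h5 := h3.tendsto.comp h4
    rw [hes0] at h5
    exact h5
  have hopen : IsOpen e.source := e.open_source
  have hclosed : IsClosed e.source := by
    rw [← closure_subset_iff_isClosed]
    intro x hx
    obtain ⟨r, hr, hball⟩ := Metric.isOpen_iff.1 hopen p hps
    obtain ⟨y, hy, hxy⟩ := Metric.mem_closure_iff.1 hx (r / 2) (by positivity)
    have h1 : ∀ᶠ t : ℝ in atTop, dist (Φ (-t) y) p < r / 2 :=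
      (hconv y hy).eventually (Metric.ball_mem_nhds p (by positivity))
    obtain ⟨t, ht1, ht0⟩ := (h1.and (eventually_ge_atTop 0)).exists
    have h2 := flow_nonexpansive hK hρ hS hΦ0 hΦadd hΦ ht0 x y
    have h3 : Φ (-t) x ∈ e.source := by
      apply hball
      rw [mem_ball]
      have h4 := dist_triangle (Φ (-t) x) (Φ (-t) y) p
      linarith
    have h4 : Φ t (Φ (-t) x) = x := by rw [← hΦadd, add_neg_cancel, hΦ0]
    have h5 := hflow t (e (Φ (-t) x))
    rw [e.left_inv h3, h4] at h5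
    rw [h5]
    exact e.map_target (hT _)
  exact IsClopen.eq_univ ⟨hclosed, hopen⟩ ⟨p, hps⟩

theorem exists_Chart_nonneg (hK : IsKahler E M) [CompleteSpace M] [ConnectedSpace M]
    (hnn : ∀ x : M, NonnegBisectionalAt E x) (hρ : IsHolIsomFlow E ρ) (hS : BotNN E ρ)
    (hfix : ∀ t, ρ t p = p) (φ : E ≃L[ℂ] (ι → ℂ)) {m : ι → ℝ}
    (hm : ∀ j, 0 < m j) (hw : ∀ (t : ℝ) (v : E),
      (mfderiv 𝓘(ℂ, E) 𝓘(ℂ, E) (ρ t) p : E → E) v = LE φ m (t * I) v) :
    ∃ e D, Chart ρ p φ m e D := by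
  obtain ⟨e₀, he₀, δ, hδ, hps, hep, htgt, hequiv⟩ := exists_linearizing_chart hρ hfix φ m hw
  obtain ⟨Φ, hΦ0, hΦadd, hΦ, hcomm⟩ := exists_flow hK hnn hρ
  obtain ⟨e, he, het, hpe, hep', heq⟩ := exists_global_chart hm he₀ hδ hps hep htgt hΦ0 hΦadd
    (flow_holo hρ hΦ0 hΦadd hΦ) (flow_linear hρ hm hΦ0 hΦ he₀ htgt hequiv) hequiv hcomm
  have hsrc := source_eq_univ_nonneg hK hρ hS hΦ0 hΦadd hΦ he het hpe hep' hm heq
  exact ⟨e, (chartDiffeo e he hsrc het).mfderivToContinuousLinearEquiv (by simp) p,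
    ⟨he, het, hsrc, hep', heq, hfix, hw, fun v => rfl⟩⟩

/-- equivariant uniformization, if the Lie derivative of the metric along `-JX` is nonnegative -/
theorem main_nonneg (hK : IsKahler E M) [CompleteSpace M] [ConnectedSpace M]
    (hnn : ∀ x : M, NonnegBisectionalAt E x) (hρ : IsHolIsomFlow E ρ) (hS : BotNN E ρ)
    {b : Module.Basis (Fin (Module.finrank ℂ E)) ℂ E}
    {m : Fin (Module.finrank ℂ E) → ℝ} (hw : HasWeights ρ p b m) :
    ∃ F : M ≃ₘ^1⟮𝓘(ℂ, E), 𝓘(ℂ, E)⟯ E, IsLinearization ρ p F := by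
  obtain ⟨hfix, hm, hw⟩ := hw
  obtain ⟨e, D, h⟩ := exists_Chart_nonneg hK hnn hρ hS hfix b.equivFun.toContinuousLinearEquiv hm
    (weights_LE hw)
  exact ⟨h.F, h.isLinearization hρ⟩

end Vale.Agent.P253.H502
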