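import Vale.Agent.P253.MathlibUsed

/-!
P253: maps which do not increase the lengths of tangent vectors on an open set do not increase
distances there, for points whose short connecting paths stay in this set.
-/

open scoped Manifold ContDiff Topology Bundle ENNReal
open Set Metric Filter Bundle MeasureTheory Manifold

noncomputable section

namespace Vale.Agent.P253.H502

variable {E : Type*} [NormedAddCommGroup E] [NormedSpace ℝ E]
  {M : Type*} [MetricSpace M] [ChartedSpace E M] [IsManifold 𝓘(ℝ, E) 1 M]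
  [RiemannianBundle (fun x : M => TangentSpace 𝓘(ℝ, E) x)]
  [IsRiemannianManifold 𝓘(ℝ, E) M]

theorem edist_le_on {f : M → M} {Ω : Set M} (hΩ : IsOpen Ω)
    (hf : ContMDiffOn 𝓘(ℝ, E) 𝓘(ℝ, E) 1 f Ω)
    (h : ∀ x ∈ Ω, ∀ v : TangentSpace 𝓘(ℝ, E) x,
      ‖(mfderiv 𝓘(ℝ, E) 𝓘(ℝ, E) f x v : TangentSpace 𝓘(ℝ, E) (f x))‖ₑ ≤ ‖v‖ₑ) {x y : M} {r : ℝ}
    (hr : ball x r ⊆ Ω) (hxy : dist x y < r) :
    edist (f x) (f y) ≤ edist x y := by
  rw [IsRiemannianManifold.out (I := 𝓘(ℝ, E)) (f x) (f y)]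
  refine le_of_forall_gt fun s hs => ?_
  have hxy' : edist x y < min s (ENNReal.ofReal r) := by
    refine lt_min hs ?_
    rw [edist_dist]
    exact ENNReal.ofReal_lt_ofReal_iff_of_nonneg dist_nonneg |>.2 hxy
  rw [IsRiemannianManifold.out (I := 𝓘(ℝ, E)) x y] at hxy'
  obtain ⟨γ, h0, h1, hγ, hlen⟩ := exists_lt_of_riemannianEDist_lt hxy'
  have hmem : ∀ t ∈ Icc (0:ℝ) 1, γ t ∈ Ω := by
    intro t ht
    apply hr
    have h3 := riemannianEDist_le_pathELength (I := 𝓘(ℝ, E)) (γ := γ) (a := 0) (b := t)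
      (x := x) (y := γ t) (hγ.mono (Icc_subset_Icc_right ht.2)) h0 rfl ht.1
    rw [← IsRiemannianManifold.out (I := 𝓘(ℝ, E)) x (γ t)] at h3
    have h4 : edist x (γ t) < ENNReal.ofReal r :=
      (h3.trans (pathELength_mono le_rfl ht.2)).trans_lt (hlen.trans_le (min_le_right _ _))
    rw [edist_dist, ENNReal.ofReal_lt_ofReal_iff_of_nonneg dist_nonneg] at h4
    rw [mem_ball, dist_comm]
    exact h4
  have h2 := riemannianEDist_le_pathELength (I := 𝓘(ℝ, E)) (γ := f ∘ γ) (a := 0) (b := 1)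
    (x := f x) (y := f y) (hf.comp hγ hmem) (by simp [h0]) (by simp [h1]) zero_le_one
  refine h2.trans_lt (lt_of_le_of_lt ?_ (hlen.trans_le (min_le_left _ _)))
  rw [pathELength_eq_lintegral_mfderivWithin_Icc, pathELength_eq_lintegral_mfderivWithin_Icc]
  refine setLIntegral_mono' measurableSet_Icc fun t ht => ?_
  have h3 : mfderivWithin 𝓘(ℝ, ℝ) 𝓘(ℝ, E) (f ∘ γ) (Icc 0 1) t =
      (mfderiv 𝓘(ℝ, E) 𝓘(ℝ, E) f (γ t)).comp
        (mfderivWithin 𝓘(ℝ, ℝ) 𝓘(ℝ, E) γ (Icc 0 1) t) := by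
    apply mfderiv_comp_mfderivWithin
    · exact ((hf (γ t) (hmem t ht)).contMDiffAt (hΩ.mem_nhds (hmem t ht))).mdifferentiableAt
        (by simp)
    · exact (hγ.mdifferentiableOn (by simp)) t ht
    · rw [uniqueMDiffWithinAt_iff_uniqueDiffWithinAt]
      exact uniqueDiffOn_Icc zero_lt_one t ht
  have h4 : mfderivWithin 𝓘(ℝ, ℝ) 𝓘(ℝ, E) (f ∘ γ) (Icc 0 1) t 1 =
      (mfderiv 𝓘(ℝ, E) 𝓘(ℝ, E) f (γ t)) (mfderivWithin 𝓘(ℝ, ℝ) 𝓘(ℝ, E) γ (Icc 0 1) t 1) :=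
    congr($h3 1)
  rw [h4]
  exact h _ (hmem t ht) _

end Vale.Agent.P253.H502
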