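import Vale.Agent.P253.H502.Nonexp
import Vale.Agent.P253.H502.LipOn
import Vale.Agent.P253.H22.Lyap
import Vale.Agent.P253.H22.Fld

/-!
P253: holomorphic vector fields along which the metric does not increase (the Lie derivative
is nonpositive): they are complete, and their flows do not increase distances forwards in time.
-/

open scoped Manifold ContDiff Topology Bundle ENNReal
open Set Metric Complex Filter Bundle IsManifold Manifold Vale.Agent.P253.Mfd

set_option maxSynthPendingDepth 3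
set_option linter.unusedSectionVars false

noncomputable section

namespace Vale.Agent.P253.H502

open Vale.Agent.P253.R2 Vale.Agent.P253.H595

section local_flow

variable {E : Type*} [NormedAddCommGroup E] [NormedSpace ℂ E] [FiniteDimensional ℂ E]

/-- local complex flow of a holomorphic vector field, with the variational equation in real time -/
theorem exists_flow_varC {v : E → E} {U : Set E} (hU : IsOpen U) (hv : DifferentiableOn ℂ v U)
    {z₀ : E} (hz₀ : z₀ ∈ U) :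
    ∃ δ > (0:ℝ), ∃ r > (0:ℝ), ball z₀ r ⊆ U ∧ ∃ Hc : ℂ → E → E,
      (∀ z ∈ ball z₀ r, Hc 0 z = z) ∧
      (∀ z ∈ ball z₀ r, ∀ ζ ∈ ball (0:ℂ) δ,
        Hc ζ z ∈ U ∧ HasDerivAt (fun ζ => Hc ζ z) (v (Hc ζ z)) ζ) ∧
      (∀ t ∈ Ioo (-δ) δ, DifferentiableOn ℂ (Hc (t:ℝ)) (ball z₀ r)) ∧
      (∀ z ∈ ball z₀ r, ∀ a : E, ∀ t ∈ Ioo (-δ) δ,
        HasDerivAt (fun s : ℝ => fderiv ℝ (Hc s) z a)
          (fderiv ℝ v (Hc t z) (fderiv ℝ (Hc t) z a)) t) := by
  have hCE : CompleteSpace E := FiniteDimensional.complete ℂ E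
  obtain ⟨δ, hδ, r, hr, hrU, Hc, hd, hin, h0, hder⟩ := H595.exists_complex_flow hU hv hz₀
  set Ω : Set (ℂ × E) := ball (0:ℂ) δ ×ˢ ball z₀ r with hΩ
  have hΩo : IsOpen Ω := isOpen_ball.prod isOpen_ball
  set F : ℂ × E → E := fun q => Hc q.1 q.2 with hF
  have hsm : ContDiffOn ℂ ∞ F Ω := contDiffOn_of_differentiableOn_complex hΩo hd
  have hball : ∀ t ∈ Ioo (-δ) δ, ((t:ℝ):ℂ) ∈ ball (0:ℂ) δ := by
    intro t ht
    rw [mem_ball_zero_iff, norm_real, Real.norm_eq_abs]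
    exact abs_lt.2 ht
  have hFd : ∀ q ∈ Ω, HasFDerivAt F (fderiv ℂ F q) q := fun q hq =>
    ((hd q hq).differentiableAt (hΩo.mem_nhds hq)).hasFDerivAt
  have hDd : ∀ q ∈ Ω, HasFDerivAt (fderiv ℂ F) (fderiv ℂ (fderiv ℂ F) q) q := fun q hq =>
    (((hsm.fderiv_of_isOpen (m := ∞) hΩo (by simp)).contDiffAt
      (hΩo.mem_nhds hq)).differentiableAt (by simp)).hasFDerivAt
  have hright : ∀ (ζ : ℂ) (z : E), (ζ, z) ∈ Ω →
      HasFDerivAt (Hc ζ) ((fderiv ℂ F (ζ, z)).comp (ContinuousLinearMap.inr ℂ ℂ E)) z := by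
    intro ζ z hq
    exact HasFDerivAt.comp z (hFd _ hq) (hasFDerivAt_prodMk_right ζ z)
  have hreal : ∀ (t : ℝ) (z : E), ((t:ℂ), z) ∈ Ω → ∀ a,
      fderiv ℝ (Hc t) z a = fderiv ℂ F ((t:ℂ), z) (0, a) := by
    intro t z hq a
    rw [((hright t z hq).restrictScalars ℝ).fderiv]
    simp
  refine ⟨δ, hδ, r, hr, hrU, Hc, h0, fun z hz ζ hζ => ⟨hin ζ hζ z hz, hder z hz ζ hζ⟩, ?_, ?_⟩
  · intro t ht z hz
    exact (hright t z ⟨hball t ht, hz⟩).differentiableAt.differentiableWithinAt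
  · intro z hz a t ht
    have hq : ((t:ℂ), z) ∈ Ω := ⟨hball t ht, hz⟩
    have hmem : Hc t z ∈ U := hin _ (hball t ht) z hz
    have hvd : HasFDerivAt v (fderiv ℂ v (Hc t z)) (Hc t z) :=
      ((hv _ hmem).differentiableAt (hU.mem_nhds hmem)).hasFDerivAt
    have h1 : HasDerivAt (fun ζ : ℂ => fderiv ℂ F (ζ, z) (0, a))
        (fderiv ℂ (fderiv ℂ F) ((t:ℂ), z) (1, 0) (0, a)) (t:ℂ) := by
      have h3 : HasDerivAt (fun ζ : ℂ => (ζ, z)) ((1 : ℂ), (0 : E)) (t:ℂ) :=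
        (hasDerivAt_id _).prodMk (hasDerivAt_const _ _)
      have h4 := HasFDerivAt.comp_hasDerivAt (t:ℂ) (f := fun ζ : ℂ => (ζ, z)) (hDd _ hq) h3
      have h5 := h4.clm_apply (hasDerivAt_const (t:ℂ) ((0 : ℂ), a))
      simp only [map_zero, add_zero, Function.comp_apply] at h5
      exact h5
    have hsymm : IsSymmSndFDerivAt ℂ F ((t:ℂ), z) :=
      (hsm.contDiffAt (hΩo.mem_nhds hq)).isSymmSndFDerivAt (by
        rw [minSmoothness_of_isRCLikeNormedField]
        exact WithTop.coe_le_coe.2 le_top)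
    have h2 : fderiv ℂ (fderiv ℂ F) ((t:ℂ), z) (1, 0) (0, a) =
        fderiv ℂ v (Hc t z) (fderiv ℂ F ((t:ℂ), z) (0, a)) := by
      rw [hsymm (1, 0) (0, a)]
      have h5 : HasFDerivAt (fun z : E => fderiv ℂ F ((t:ℂ), z) (1, 0))
          (((ContinuousLinearMap.apply ℂ E ((1 : ℂ), (0 : E))).comp
            (fderiv ℂ (fderiv ℂ F) ((t:ℂ), z))).comp (ContinuousLinearMap.inr ℂ ℂ E)) z := by
        have h6 := (ContinuousLinearMap.apply ℂ E ((1 : ℂ), (0 : E))).hasFDerivAt.comp ((t:ℂ), z)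
          (hDd _ hq)
        exact HasFDerivAt.comp z h6 (hasFDerivAt_prodMk_right (t:ℂ) z)
      have h6 : (fun w : E => v (Hc t w)) =ᶠ[𝓝 z] (fun w : E => fderiv ℂ F ((t:ℂ), w) (1, 0)) := by
        filter_upwards [isOpen_ball.mem_nhds hz] with w hw
        have h8 : HasDerivAt (fun ζ : ℂ => F (ζ, w)) (fderiv ℂ F ((t:ℂ), w) (1, 0)) (t:ℂ) := by
          have h11 : HasDerivAt (fun ζ : ℂ => (ζ, w)) ((1 : ℂ), (0 : E)) (t:ℂ) :=
            (hasDerivAt_id _).prodMk (hasDerivAt_const _ _)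
          exact HasFDerivAt.comp_hasDerivAt (t:ℂ) (f := fun ζ : ℂ => (ζ, w))
            (hFd _ ⟨hball t ht, hw⟩) h11
        exact (hder w hw _ (hball t ht)).unique h8
      have h7 : HasFDerivAt (fun w : E => v (Hc t w)) ((fderiv ℂ v (Hc t z)).comp
          ((fderiv ℂ F ((t:ℂ), z)).comp (ContinuousLinearMap.inr ℂ ℂ E))) z :=
        HasFDerivAt.comp z hvd (hright t z hq)
      have h8 := (h5.congr_of_eventuallyEq h6).unique h7
      have h9 := congrArg (fun T : E →L[ℂ] E => T a) h8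
      simpa using h9
    rw [h2] at h1
    have h4 : (fun s : ℝ => fderiv ℝ (Hc s) z a) =ᶠ[𝓝 t]
        fun s : ℝ => fderiv ℂ F ((s:ℂ), z) (0, a) := by
      filter_upwards [Ioo_mem_nhds ht.1 ht.2] with s hs using hreal s z ⟨hball s hs, hz⟩ a
    have h5 := (hasDerivAt_real h1).congr_of_eventuallyEq h4
    have h6 : fderiv ℝ v (Hc t z) = (fderiv ℂ v (Hc t z)).restrictScalars ℝ :=
      (hvd.restrictScalars ℝ).fderiv
    rw [hreal t z hq a, h6]
    exact h5

/-- transported vectors do not become longer forwards in time, if `Sfun` is nonpositive -/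
theorem energy_anti {G : E → E →L[ℝ] E →L[ℝ] ℝ} {v : E → E} {U : Set E} (h : LocalKahler G U)
    (hS : ∀ z ∈ U, ∀ a, Sfun G v z a ≤ 0) {H : ℝ → E → E} {δ : ℝ} {z : E}
    (hH : ∀ t ∈ Ioo (-δ) δ, H t z ∈ U ∧ HasDerivAt (fun s => H s z) (v (H t z)) t)
    (hvar : ∀ a : E, ∀ t ∈ Ioo (-δ) δ,
      HasDerivAt (fun s => fderiv ℝ (H s) z a) (fderiv ℝ v (H t z) (fderiv ℝ (H t) z a)) t)
    {t : ℝ} (ht : t ∈ Ioo (-δ) δ) (ht0 : 0 ≤ t) (a : E) :
    G (H t z) (fderiv ℝ (H t) z a) (fderiv ℝ (H t) z a) ≤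
      G (H 0 z) (fderiv ℝ (H 0) z a) (fderiv ℝ (H 0) z a) := by
  have hδ : 0 < δ := by linarith [ht.1, ht.2]
  have hsub : ∀ s ∈ Icc 0 t, s ∈ Ioo (-δ) δ := fun s hs =>
    ⟨by linarith [hs.1], hs.2.trans_lt ht.2⟩
  have hder : ∀ s ∈ Icc 0 t, HasDerivAt
      (fun s => G (H s z) (fderiv ℝ (H s) z a) (fderiv ℝ (H s) z a))
      (2 * Sfun G v (H s z) (fderiv ℝ (H s) z a)) s := by
    intro s hs
    have hs' := hsub s hs
    exact hasDerivAt_energy (G := G) (v := v) (z := H s z) (h.differentiableAt (hH s hs').1)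
      (fun v w => h.symm _ (hH s hs').1 v w) (hH s hs').2 rfl (hvar a s hs') rfl
  have hmono : AntitoneOn (fun s => G (H s z) (fderiv ℝ (H s) z a) (fderiv ℝ (H s) z a))
      (Icc 0 t) := by
    apply antitoneOn_of_deriv_nonpos (convex_Icc 0 t)
    · exact fun s hs => (hder s hs).continuousAt.continuousWithinAt
    · intro s hs
      exact (hder s (interior_subset hs)).differentiableAt.differentiableWithinAt
    · intro s hs
      rw [(hder s (interior_subset hs)).deriv]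
      have := hS _ (hH s (hsub s (interior_subset hs))).1 (fderiv ℝ (H s) z a)
      linarith
  exact hmono (left_mem_Icc.2 ht0) (right_mem_Icc.2 ht0) ht0

end local_flow

variable {E : Type*} [NormedAddCommGroup E] [NormedSpace ℂ E] [FiniteDimensional ℂ E]
  {M : Type*} [MetricSpace M] [ChartedSpace E M]
  [IsManifold 𝓘(ℂ, E) 1 M] [IsManifold 𝓘(ℝ, E) ∞ M]

/-- locally holomorphic maps are smooth for the underlying real structures -/
theorem contMDiffAt_real {f : M → M} {x : M}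
    (hf : ∀ᶠ y in 𝓝 x, MDifferentiableAt 𝓘(ℂ, E) 𝓘(ℂ, E) f y) :
    ContMDiffAt 𝓘(ℝ, E) 𝓘(ℝ, E) ∞ f x := by
  have hCE : CompleteSpace E := FiniteDimensional.complete ℂ E
  rw [contMDiffAt_iff]
  refine ⟨hf.self_of_nhds.continuousAt, ?_⟩
  obtain ⟨O, hO, hOo, hxO⟩ := _root_.eventually_nhds_iff.1 hf
  have hOc : ContinuousOn f O := fun y hy => (hO y hy).continuousAt.continuousWithinAt
  set e := chartAt E x with he
  set e' := chartAt E (f x) with he'
  set U : Set E := e.target ∩ e.symm ⁻¹' (O ∩ f ⁻¹' e'.source) with hU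
  have hUo : IsOpen U :=
    e.continuousOn_symm.isOpen_inter_preimage e.open_target
      (hOc.isOpen_inter_preimage hOo e'.open_source)
  have hxU : e x ∈ U := ⟨e.map_source (mem_chart_source E x), by
    simp only [mem_preimage]
    rw [e.left_inv (mem_chart_source E x)]
    exact ⟨hxO, mem_chart_source E (f x)⟩⟩
  have hd : DifferentiableOn ℂ (e' ∘ f ∘ e.symm) U := by
    intro z hz
    have h1 : MDifferentiableAt 𝓘(ℂ, E) 𝓘(ℂ, E) e.symm z :=
      ((contMDiffOn_symm_of_mem_maximalAtlas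
        (chart_mem_maximalAtlas (I := 𝓘(ℂ, E)) (n := 1) x)).contMDiffAt
        (e.open_target.mem_nhds hz.1)).mdifferentiableAt (by simp)
    have h2 : MDifferentiableAt 𝓘(ℂ, E) 𝓘(ℂ, E) e' (f (e.symm z)) :=
      ((contMDiffOn_of_mem_maximalAtlas
        (chart_mem_maximalAtlas (I := 𝓘(ℂ, E)) (n := 1) (f x))).contMDiffAt
        (e'.open_source.mem_nhds hz.2.2)).mdifferentiableAt (by simp)
    have h3 : MDifferentiableAt 𝓘(ℂ, E) 𝓘(ℂ, E) (e' ∘ f ∘ e.symm) z :=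
      h2.comp z ((hO (e.symm z) hz.2.1).comp z h1)
    exact h3.differentiableAt.differentiableWithinAt
  have h4 : ContDiffAt ℝ ∞ (e' ∘ f ∘ e.symm) (e x) :=
    ((contDiffOn_of_differentiableOn_complex hUo hd).restrict_scalars ℝ).contDiffAt
      (hUo.mem_nhds hxU)
  simp only [extChartAt, mfld_simps]
  exact h4.contDiffWithinAt

variable [RiemannianBundle (fun x : M => TangentSpace 𝓘(ℝ, E) x)]
  [IsContMDiffRiemannianBundle 𝓘(ℝ, E) ∞ E (fun x : M => TangentSpace 𝓘(ℝ, E) x)]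
  {Z : (x : M) → TangentSpace 𝓘(ℂ, E) x} {p : M}

variable (E) in
/-- the Lie derivative of the metric along `Z` is nonpositive -/
def ZNeg (Z : (x : M) → TangentSpace 𝓘(ℂ, E) x) : Prop :=
  ∀ e ∈ atlas E M, ∀ z ∈ e.target, ∀ a,
    Sfun (chartG e) (fun y => comps Z e (e.symm y)) z a ≤ 0

theorem local_stepZ (hK : IsKahler E M) (hZ : IsHolField Z) (hS : ZNeg E Z) (x₀ : M) :
    ∃ δ > 0, ∃ V ∈ 𝓝 x₀, ∀ x ∈ V, ∀ t : ℝ, 0 ≤ t → t < δ →
      ((t:ℂ), x) ∈ DF (IntAt Z) ∧ ∀ w : E,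
        innerAt (E := E) (FF (IntAt Z) t x) (dM (FF (IntAt Z) t) x w) (dM (FF (IntAt Z) t) x w) ≤
          innerAt (E := E) x w w := by
  have hLF := locFlow_of_field hZ
  have he : chartAt E x₀ ∈ maximalAtlas 𝓘(ℂ, E) 1 M := chart_mem_maximalAtlas x₀
  set e := chartAt E x₀ with hedef
  have her := mem_maximalAtlas_real he
  have hx₀ : x₀ ∈ e.source := mem_chart_source E x₀
  have hLK := localKahler_chartG hK he
  obtain ⟨δ, hδ, r, hr, hrU, Hc, h0, hH, hHd, hvar⟩ := exists_flow_varC e.open_target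
    (hZ e he) (e.map_source hx₀)
  set V := e.source ∩ e ⁻¹' (ball (e x₀) r) with hV
  have hVo : IsOpen V := e.continuousOn.isOpen_inter_preimage e.open_source isOpen_ball
  have hst : ∀ x ∈ V, StarInt (IntAt Z) (ball (0:ℂ) δ) (fun ζ => e.symm (Hc ζ (e x))) x := by
    intro x hx
    refine ⟨isOpen_ball, (convex_ball 0 δ).starConvex (mem_ball_self hδ), mem_ball_self hδ,
      fun ζ hζ => ?_, ?_⟩
    · exact intAt_of_hasDerivAt he (hH _ hx.2 ζ hζ).1 (hH _ hx.2 ζ hζ).2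
    · simp only [h0 (e x) hx.2]
      exact e.left_inv hx.1
  have hball : ∀ t ∈ Ioo (-δ) δ, ((t:ℝ):ℂ) ∈ ball (0:ℂ) δ := by
    intro t ht
    rw [mem_ball_zero_iff, norm_real, Real.norm_eq_abs]
    exact abs_lt.2 ht
  refine ⟨δ, hδ, V, hVo.mem_nhds ⟨hx₀, mem_ball_self hr⟩, fun x hx t ht0 htδ => ?_⟩
  have ht' : t ∈ Ioo (-δ) δ := ⟨by linarith, htδ⟩
  have h0' : (0:ℝ) ∈ Ioo (-δ) δ := ⟨by linarith only [hδ], hδ⟩
  have hform : ∀ x ∈ V, FF (IntAt Z) t x = e.symm (Hc t (e x)) := fun x hx =>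
    (hst x hx).eq hLF (hball t ht')
  refine ⟨(hst x hx).mem_DF (hball t ht'), fun w => ?_⟩
  have h1 : ∀ s ∈ Ioo (-δ) δ, Hc (s:ℝ) (e x) ∈ e.target ∧
      HasDerivAt (fun s : ℝ => Hc s (e x)) ((fun y => comps Z e (e.symm y)) (Hc s (e x))) s :=
    fun s hs => ⟨(hH _ hx.2 _ (hball s hs)).1, hasDerivAt_real (hH _ hx.2 _ (hball s hs)).2⟩
  have htgt : Hc (t:ℝ) (e x) ∈ e.target := (h1 t ht').1
  -- the differential of the flow in the chart
  have hmd : HasMFDerivAt 𝓘(ℝ, E) 𝓘(ℝ, E) e x (dchart e x) :=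
    (((contMDiffOn_of_mem_maximalAtlas her).contMDiffAt
      (e.open_source.mem_nhds hx.1)).mdifferentiableAt (by simp)).hasMFDerivAt
  have hHf : HasFDerivAt (Hc (t:ℝ)) (fderiv ℝ (Hc (t:ℝ)) (e x)) (e x) := by
    have h2 : DifferentiableAt ℂ (Hc (t:ℝ)) (e x) :=
      ((hHd t ht') (e x) hx.2).differentiableAt (isOpen_ball.mem_nhds hx.2)
    exact (h2.hasFDerivAt.restrictScalars ℝ).differentiableAt.hasFDerivAt
  have hms : HasMFDerivAt 𝓘(ℝ, E) 𝓘(ℝ, E) e.symm (Hc (t:ℝ) (e x))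
      (mfderiv 𝓘(ℝ, E) 𝓘(ℝ, E) e.symm (Hc (t:ℝ) (e x))) :=
    (((contMDiffOn_symm_of_mem_maximalAtlas her).contMDiffAt
      (e.open_target.mem_nhds htgt)).mdifferentiableAt (by simp)).hasMFDerivAt
  let L : E →L[ℝ] E :=
    (dsymm e (Hc (t:ℝ) (e x))).comp ((fderiv ℝ (Hc (t:ℝ)) (e x)).comp (dchart e x))
  have hcomp1 := HasMFDerivAt.comp x (g := Hc (t:ℝ)) (f := e) hHf.hasMFDerivAt hmd
  have hcomp : HasMFDerivAt 𝓘(ℝ, E) 𝓘(ℝ, E) (e.symm ∘ (Hc (t:ℝ) ∘ e)) x L :=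
    HasMFDerivAt.comp x (g := e.symm) (f := Hc (t:ℝ) ∘ e) hms hcomp1
  have hev : FF (IntAt Z) t =ᶠ[𝓝 x] (e.symm ∘ (Hc (t:ℝ) ∘ e)) := by
    filter_upwards [hVo.mem_nhds hx] with y hy
    exact hform y hy
  have hdM : dM (FF (IntAt Z) t) x w =
      dsymm e (Hc (t:ℝ) (e x)) (fderiv ℝ (Hc (t:ℝ)) (e x) (dchart e x w)) := by
    have h2 := (hcomp.congr_of_eventuallyEq hev).mfderiv
    exact congrArg (fun T : E →L[ℝ] E => T w) h2
  have hmono := energy_anti hLK (fun z hz a => hS e (chart_mem_atlas E x₀) z hz a) (H := fun s : ℝ => Hc s) h1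
    (fun a t ht => hvar (e x) hx.2 a t ht) ht' ht0 (dchart e x w)
  have hH0 : fderiv ℝ (Hc ((0:ℝ):ℂ)) (e x) (dchart e x w) = dchart e x w := by
    have h2 : Hc ((0:ℝ):ℂ) =ᶠ[𝓝 (e x)] id := by
      filter_upwards [isOpen_ball.mem_nhds hx.2] with z hz
      rw [ofReal_zero]
      exact h0 z hz
    rw [h2.fderiv_eq, fderiv_id]
    rfl
  have hH00 : Hc ((0:ℝ):ℂ) (e x) = e x := by rw [ofReal_zero]; exact h0 _ hx.2
  rw [hH0, hH00, innerAt_chart he hx.1] at hmono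
  rw [hdM, hform x hx]
  exact hmono

/-- a common time on a compact set -/
theorem uniform_stepZ (hK : IsKahler E M) (hZ : IsHolField Z) (hS : ZNeg E Z) {C : Set M}
    (hC : IsCompact C) :
    ∃ δ > 0, ∀ x ∈ C, ∀ t : ℝ, 0 ≤ t → t < δ →
      ((t:ℂ), x) ∈ DF (IntAt Z) ∧ ∀ w : E,
        innerAt (E := E) (FF (IntAt Z) t x) (dM (FF (IntAt Z) t) x w) (dM (FF (IntAt Z) t) x w) ≤
          innerAt (E := E) x w w := by
  refine hC.induction_on (p := fun C => ∃ δ > 0, ∀ x ∈ C, ∀ t : ℝ, 0 ≤ t → t < δ →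
      ((t:ℂ), x) ∈ DF (IntAt Z) ∧ ∀ w : E,
        innerAt (E := E) (FF (IntAt Z) t x) (dM (FF (IntAt Z) t) x w) (dM (FF (IntAt Z) t) x w) ≤
          innerAt (E := E) x w w) ?_ ?_ ?_ ?_
  · exact ⟨1, one_pos, fun x hx => absurd hx (notMem_empty x)⟩
  · rintro s t hst ⟨δ, hδ, h⟩
    exact ⟨δ, hδ, fun x hx => h x (hst hx)⟩
  · rintro s t ⟨δ, hδ, h⟩ ⟨δ', hδ', h'⟩
    refine ⟨min δ δ', lt_min hδ hδ', fun x hx τ hτ0 hτ => ?_⟩
    rcases hx with hx | hx
    · exact h x hx τ hτ0 (hτ.trans_le (min_le_left _ _))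
    · exact h' x hx τ hτ0 (hτ.trans_le (min_le_right _ _))
  · intro x _
    obtain ⟨δ, hδ, V, hV, h⟩ := local_stepZ hK hZ hS x
    exact ⟨V, mem_nhdsWithin_of_mem_nhds hV, δ, hδ, h⟩

theorem contMDiffAt_FF (hZ : IsHolField Z) {ζ : ℂ} {x : M} (h : (ζ, x) ∈ DF (IntAt Z)) :
    ContMDiffAt 𝓘(ℝ, E) 𝓘(ℝ, E) ∞ (FF (IntAt Z) ζ) x := by
  have hLF := locFlow_of_field hZ
  refine contMDiffAt_real ?_
  have h1 : IsOpen {y : M | (ζ, y) ∈ DF (IntAt Z)} :=
    (isOpen_DF hLF).preimage (by fun_prop : Continuous fun y : M => (ζ, y))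
  filter_upwards [h1.mem_nhds h] with y hy using mdiff_slice hLF hy

variable [IsRiemannianManifold 𝓘(ℝ, E) M]

/-- for a short time the partial flow does not increase distances inside a ball -/
theorem dist_le_stepZ [ProperSpace M] (hK : IsKahler E M) (hZ : IsHolField Z) (hS : ZNeg E Z)
    (p : M) (R : ℝ) :
    ∃ δ > 0, ∀ t : ℝ, 0 ≤ t → t < δ → (∀ x ∈ closedBall p R, ((t:ℂ), x) ∈ DF (IntAt Z)) ∧
      ∀ (x y : M) (r : ℝ), ball x r ⊆ ball p R → dist x y < r →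
        dist (FF (IntAt Z) t x) (FF (IntAt Z) t y) ≤ dist x y := by
  have hLF := locFlow_of_field hZ
  obtain ⟨δ, hδ, h⟩ := uniform_stepZ hK hZ hS (isCompact_closedBall p R)
  refine ⟨δ, hδ, fun t ht0 ht => ⟨fun x hx => (h x hx t ht0 ht).1, fun x y r hr hxy => ?_⟩⟩
  have h1 := edist_le_on (E := E) (f := FF (IntAt Z) t) (Ω := ball p R) isOpen_ball
    (fun z hz => ((contMDiffAt_FF hZ
      (h z (ball_subset_closedBall hz) t ht0 ht).1).of_le (by simp)).contMDiffWithinAt)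
    (fun z hz v => ?_) hr hxy
  · rw [edist_dist, edist_dist, ENNReal.ofReal_le_ofReal_iff dist_nonneg] at h1
    exact h1
  · have h2 := (h z (ball_subset_closedBall hz) t ht0 ht).2 v
    rw [enorm_le_iff_norm_le, norm_eq_sqrt_real_inner, norm_eq_sqrt_real_inner]
    exact Real.sqrt_le_sqrt h2

/-- the length of the field does not increase along its forward orbits -/
theorem speed_le (hK : IsKahler E M) (hZ : IsHolField Z) (hS : ZNeg E Z) (x : M) {s : ℝ}
    (hs : 0 ≤ s) (hmem : ∀ r : ℝ, 0 ≤ r → r ≤ s → ((r:ℂ), x) ∈ DF (IntAt Z)) :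
    fnorm E Z (FF (IntAt Z) s x) ≤ fnorm E Z x := by
  have hLF := locFlow_of_field hZ
  refine interval_propagate (P := fun τ : ℝ => fnorm E Z (FF (IntAt Z) τ x) ≤ fnorm E Z x) hs
    (fun τ hτ => ?_) ?_
  · have he : chartAt E (FF (IntAt Z) τ x) ∈ maximalAtlas 𝓘(ℂ, E) 1 M :=
      chart_mem_maximalAtlas (FF (IntAt Z) τ x)
    set e := chartAt E (FF (IntAt Z) τ x) with hedef
    have hLK := localKahler_chartG hK he
    have hc : ContinuousAt (fun r : ℝ => FF (IntAt Z) r x) τ := by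
      have h1 : ContinuousAt (fun w : ℂ => FF (IntAt Z) w x) (τ : ℂ) :=
        (hLF.mdiff (FF_int hLF (hmem τ hτ.1 hτ.2))).continuousAt
      exact ContinuousAt.comp (g := fun w : ℂ => FF (IntAt Z) w x) h1
        continuous_ofReal.continuousAt
    obtain ⟨ε, hε, hεV⟩ := Metric.eventually_nhds_iff.1
      (hc.eventually (e.open_source.mem_nhds (mem_chart_source E (FF (IntAt Z) τ x))))
    refine ⟨ε, hε, fun s₁ hs₁ s₂ hs₂ h1 h2 h12 hP => le_trans ?_ hP⟩
    have hsrc : ∀ r ∈ Icc s₁ s₂, FF (IntAt Z) r x ∈ e.source := by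
      intro r hr
      apply hεV
      rw [Real.dist_eq]
      rw [abs_lt] at h1 h2 ⊢
      exact ⟨by linarith [h1.1, hr.1], by linarith [h2.2, hr.2]⟩
    set v : E → E := fun y => comps Z e (e.symm y) with hv
    have hvy : ∀ r ∈ Icc s₁ s₂, v (e (FF (IntAt Z) r x)) = comps Z e (FF (IntAt Z) r x) := by
      intro r hr
      rw [hv]
      simp only [e.left_inv (hsrc r hr)]
    have hder : ∀ r ∈ Icc s₁ s₂, HasDerivAt
        (fun r : ℝ => chartG e (e (FF (IntAt Z) r x)) (v (e (FF (IntAt Z) r x)))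
          (v (e (FF (IntAt Z) r x))))
        (2 * Sfun (chartG e) v (e (FF (IntAt Z) r x)) (v (e (FF (IntAt Z) r x)))) r := by
      intro r hr
      have htgt : e (FF (IntAt Z) r x) ∈ e.target := e.map_source (hsrc r hr)
      have h3 : HasDerivAt (fun r : ℝ => e (FF (IntAt Z) r x)) (v (e (FF (IntAt Z) r x))) r := by
        rw [hvy r hr]
        exact hasDerivAt_real (IntAt.hasDerivAt he
          (FF_int hLF (hmem r (hs₁.1.trans hr.1) (hr.2.trans hs₂.2))) (hsrc r hr))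
      have h4 : HasFDerivAt v (fderiv ℝ v (e (FF (IntAt Z) r x))) (e (FF (IntAt Z) r x)) :=
        ((((hZ e he) _ htgt).differentiableAt (e.open_target.mem_nhds htgt)).hasFDerivAt.restrictScalars
          ℝ).differentiableAt.hasFDerivAt
      have h5 : HasDerivAt (fun r : ℝ => v (e (FF (IntAt Z) r x)))
          (fderiv ℝ v (e (FF (IntAt Z) r x)) (v (e (FF (IntAt Z) r x)))) r :=
        HasFDerivAt.comp_hasDerivAt (f := fun r : ℝ => e (FF (IntAt Z) r x)) r h4 h3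
      exact hasDerivAt_energy (G := chartG e) (v := v) (z := e (FF (IntAt Z) r x))
        (hLK.differentiableAt htgt) (fun a b => hLK.symm _ htgt a b) h3 rfl h5 rfl
    have hanti : AntitoneOn
        (fun r : ℝ => chartG e (e (FF (IntAt Z) r x)) (v (e (FF (IntAt Z) r x)))
          (v (e (FF (IntAt Z) r x)))) (Icc s₁ s₂) := by
      apply antitoneOn_of_deriv_nonpos (convex_Icc s₁ s₂)
      · exact fun r hr => (hder r hr).continuousAt.continuousWithinAt
      · intro r hr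
        exact (hder r (interior_subset hr)).differentiableAt.differentiableWithinAt
      · intro r hr
        have hr' := interior_subset hr
        rw [(hder r hr').deriv]
        have := hS e (chart_mem_atlas E _) _ (e.map_source (hsrc r hr'))
          (v (e (FF (IntAt Z) r x)))
        linarith
    have h3 := hanti (left_mem_Icc.2 h12) (right_mem_Icc.2 h12) h12
    simp only [hvy s₁ (left_mem_Icc.2 h12), hvy s₂ (right_mem_Icc.2 h12)] at h3
    rw [← H22.fnorm_sq_eq he (hsrc s₁ (left_mem_Icc.2 h12)),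
      ← H22.fnorm_sq_eq he (hsrc s₂ (right_mem_Icc.2 h12))] at h3
    exact (pow_le_pow_iff_left₀ (norm_nonneg _) (norm_nonneg _) two_ne_zero).1 h3
  · simp only [ofReal_zero, FF_zero hLF]
    exact le_rfl

/-- forward orbits exist for all times and move at most with the initial speed -/
theorem forwardA [ProperSpace M] (hK : IsKahler E M) (hZ : IsHolField Z) (hS : ZNeg E Z)
    (x : M) {t : ℝ} (ht : 0 ≤ t) :
    ((t:ℂ), x) ∈ DF (IntAt Z) ∧ dist x (FF (IntAt Z) t x) ≤ 2 * fnorm E Z x * t := by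
  have hLF := locFlow_of_field hZ
  -- distance covered as long as the orbit exists
  have hstay : ∀ s : ℝ, 0 ≤ s → (∀ r : ℝ, 0 ≤ r → r ≤ s → ((r:ℂ), x) ∈ DF (IntAt Z)) →
      dist x (FF (IntAt Z) s x) ≤ 2 * fnorm E Z x * s := by
    intro s hs hmem
    have h1 := H22.dist_orbit_le hK hZ (x := x) (C := fnorm E Z x) (tnorm_nonneg (E := E) _ _)
      (t := 1) (b := s) hs (fun r hr => by rw [mul_one]; exact hmem r hr.1 hr.2)
      (fun r hr => by
        rw [mul_one]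
        exact speed_le hK hZ hS x hr.1 fun r' h0 h1 => hmem r' h0 (h1.trans hr.2))
    rw [mul_one] at h1
    simpa using h1
  suffices hall : ∀ s : ℝ, 0 ≤ s → ((s:ℂ), x) ∈ DF (IntAt Z) from
    ⟨hall t ht, hstay t ht fun r hr _ => hall r hr⟩
  intro t ht
  set S : Set ℝ := {s | 0 ≤ s ∧ ((s : ℂ), x) ∉ DF (IntAt Z)} with hSdef
  by_contra hcon
  have hne : S.Nonempty := ⟨t, ht, hcon⟩
  have hcl : IsClosed S := by
    have h1 : IsOpen {s : ℝ | ((s : ℂ), x) ∈ DF (IntAt Z)} :=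
      (isOpen_slice (P := IntAt Z) x).preimage continuous_ofReal
    exact isClosed_Ici.inter h1.isClosed_compl
  have hbdd : BddBelow S := ⟨0, fun s hs => hs.1⟩
  set t₀ : ℝ := sInf S with ht₀
  have ht₀S : t₀ ∈ S := hcl.csInf_mem hne hbdd
  have ht₀0 : 0 < t₀ := by
    rcases lt_or_eq_of_le ht₀S.1 with h1 | h1
    · exact h1
    · exfalso
      apply ht₀S.2
      rw [← h1, ofReal_zero]
      exact zero_mem_DF hLF x
  have hmem : ∀ s : ℝ, 0 ≤ s → s < t₀ → ((s : ℂ), x) ∈ DF (IntAt Z) := by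
    intro s hs hst
    by_contra hcon
    exact absurd (csInf_le hbdd (show s ∈ S from ⟨hs, hcon⟩)) (not_le.2 hst)
  have hco := H595.tendsto_cocompact hLF ht₀S.2 (fun r hr => by
    have h1 := hmem (r * t₀) (mul_nonneg hr.1 ht₀0.le) (by nlinarith [hr.2])
    rw [ofReal_mul] at h1
    exact h1)
  have hmap : Tendsto (fun s : ℝ => ((s : ℂ), x)) (𝓝[<] t₀) (𝓝[DF (IntAt Z)] ((t₀ : ℂ), x)) := by
    refine tendsto_nhdsWithin_iff.2 ⟨?_, ?_⟩
    · have h1 : Continuous (fun s : ℝ => ((s : ℂ), x)) := by fun_prop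
      exact (h1.tendsto t₀).mono_left nhdsWithin_le_nhds
    · filter_upwards [Ioo_mem_nhdsLT ht₀0] with s hs using hmem s hs.1.le hs.2
  have h1 := (hco.comp hmap).eventually
    ((isCompact_closedBall x (2 * fnorm E Z x * t₀)).compl_mem_cocompact)
  have hC0 : 0 ≤ fnorm E Z x := tnorm_nonneg (E := E) _ _
  have h2 : ∀ᶠ s : ℝ in 𝓝[<] t₀, False := by
    filter_upwards [h1, Ioo_mem_nhdsLT ht₀0] with s hs hs'
    apply hs
    rw [mem_closedBall, dist_comm]
    refine (hstay s hs'.1.le fun r hr hrs => hmem r hr (hrs.trans_lt hs'.2)).trans ?_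
    nlinarith [hs'.2]
  exact (NeBot.ne inferInstance : 𝓝[<] t₀ ≠ ⊥) (eventually_false_iff_eq_bot.1 h2)

/-- a holomorphic vector field along which the metric does not increase is complete
and its flow does not increase distances forwards in time -/
theorem completeA (hK : IsKahler E M) [CompleteSpace M] [ConnectedSpace M]
    (hnn : ∀ x : M, NonnegBisectionalAt E x) (hZ : IsHolField Z) (hS : ZNeg E Z) :
    ∃ ψ : ℂ → M → M, IsHolCFlow E ψ ∧ (∀ x ζ, IntAt Z (fun w => ψ w x) ζ) ∧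
      ∀ t : ℝ, 0 ≤ t → ∀ x y, dist (ψ t x) (ψ t y) ≤ dist x y := by
  have hprop : ProperSpace M := properSpace_riemannian E M
  have hLF := locFlow_of_field hZ
  obtain ⟨hD, h0, hadd, hsm⟩ := H595.complete (H451.kp_prop hK hnn)
    (H618.liouville_noTouch hK hnn) hLF (fun x t ht => (forwardA hK hZ hS x ht.1).1)
  refine ⟨FF (IntAt Z), ⟨h0, hadd, hsm⟩, fun x ζ => FF_int hLF (hD ▸ mem_univ _),
    fun t ht x y => ?_⟩
  set C : ℝ := 2 * fnorm E Z x with hC
  have hC0 : 0 ≤ C := by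
    have : 0 ≤ fnorm E Z x := tnorm_nonneg (E := E) _ _
    positivity
  obtain ⟨δ, hδ, h⟩ := dist_le_stepZ hK hZ hS x (C * t + dist x y + 1)
  refine interval_propagate
    (P := fun τ : ℝ => dist (FF (IntAt Z) τ x) (FF (IntAt Z) τ y) ≤ dist x y) ht
    (fun τ hτ => ⟨δ / 2, by positivity, fun s₁ hs₁ s₂ hs₂ h1 h2 h12 hP => ?_⟩) ?_
  · have h3 : s₂ - s₁ < δ := by
      rw [abs_lt] at h1 h2
      linarith [h1.1, h2.2]
    have h4 : ∀ z : M, FF (IntAt Z) s₂ z = FF (IntAt Z) ((s₂ - s₁ : ℝ) : ℂ) (FF (IntAt Z) s₁ z) := by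
      intro z
      rw [← hadd]
      congr 1
      push_cast; ring
    have h5 := (forwardA hK hZ hS x hs₁.1).2
    have h5' : C * s₁ ≤ C * t := mul_le_mul_of_nonneg_left hs₁.2 hC0
    rw [h4 x, h4 y]
    refine ((h (s₂ - s₁) (by linarith) h3).2 (FF (IntAt Z) s₁ x) (FF (IntAt Z) s₁ y)
      (dist x y + 1) (fun w hw => ?_) (by linarith)).trans hP
    rw [mem_ball] at hw ⊢
    have h6 := dist_triangle w (FF (IntAt Z) s₁ x) x
    rw [dist_comm (FF (IntAt Z) s₁ x) x] at h6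
    linarith
  · simp only [ofReal_zero, h0]
    exact le_rfl

omit [FiniteDimensional ℂ E] [IsManifold 𝓘(ℝ, E) ∞ M]
  [RiemannianBundle (fun x : M => TangentSpace 𝓘(ℝ, E) x)]
  [IsContMDiffRiemannianBundle 𝓘(ℝ, E) ∞ E (fun x : M => TangentSpace 𝓘(ℝ, E) x)]
  [IsRiemannianManifold 𝓘(ℝ, E) M] [IsManifold 𝓘(ℂ, E) 1 M] in
theorem comps_neg (Z : (x : M) → TangentSpace 𝓘(ℂ, E) x) (e : OpenPartialHomeomorph M E) (x : M) :
    comps (E := E) (fun x => -(Z x)) e x = -(comps (E := E) Z e x) :=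
  map_neg (mfderiv 𝓘(ℂ, E) 𝓘(ℂ, E) e x) (Z x)

/-- the flow of a holomorphic vector field with nonnegative Lie derivative of the metric: it is
complete, and backwards in time it does not increase distances -/
theorem field_flow (hK : IsKahler E M) [CompleteSpace M] [ConnectedSpace M]
    (hnn : ∀ x : M, NonnegBisectionalAt E x) (hZ : IsHolField Z)
    (hS : ∀ e ∈ maximalAtlas 𝓘(ℂ, E) 1 M, ∀ z ∈ e.target, ∀ a,
      0 ≤ Sfun (chartG e) (fun y : E => comps Z e (e.symm y)) z a) :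
    ∃ ψ : ℂ → M → M, IsHolCFlow E ψ ∧ (∀ x ζ, IntAt Z (fun w => ψ w x) ζ) ∧
      ∀ t : ℝ, 0 ≤ t → ∀ x y, dist (ψ (-t) x) (ψ (-t) y) ≤ dist x y := by
  set Z' : (x : M) → TangentSpace 𝓘(ℂ, E) x := fun x => -(Z x) with hZ'
  have hZ'h : IsHolField Z' := by
    intro e he z hz
    have h1 := (hZ e he z hz).neg
    refine h1.congr (fun y _ => ?_) ?_
    · exact comps_neg Z e _
    · exact comps_neg Z e _
  have hS' : ZNeg E Z' := by
    intro e he z hz a
    have he' : e ∈ maximalAtlas 𝓘(ℂ, E) 1 M := IsManifold.subset_maximalAtlas he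
    have h1 := hS e he' z hz a
    have h2 : (fun y : E => comps Z' e (e.symm y)) = fun y : E => -(comps Z e (e.symm y)) := by
      funext y
      exact comps_neg Z e _
    have h3 : Sfun (chartG e) (fun y : E => comps Z' e (e.symm y)) z a =
        -Sfun (chartG e) (fun y : E => comps Z e (e.symm y)) z a := by
      rw [h2]
      simp only [Sfun, fderiv_fun_neg, map_neg, neg_apply]
      ring
    rw [h3]
    linarith
  obtain ⟨ψ, hψ, hint, hne⟩ := completeA hK hnn hZ'h hS'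
  refine ⟨fun ζ => ψ (-ζ), ⟨?_, ?_, ?_⟩, ?_, ?_⟩
  · intro x
    simp only [neg_zero, hψ.zero]
  · intro s t x
    simp only [neg_add, hψ.add]
  · have h1 : ContMDiff (𝓘(ℂ, ℂ).prod 𝓘(ℂ, E)) (𝓘(ℂ, ℂ).prod 𝓘(ℂ, E)) 1
        (fun q : ℂ × M => (-q.1, q.2)) := by
      have h2 : ContMDiff 𝓘(ℂ, ℂ) 𝓘(ℂ, ℂ) 1 (fun w : ℂ => -w) :=
        (contDiff_neg (𝕜 := ℂ) (F := ℂ)).contMDiff
      exact (h2.comp contMDiff_fst).prodMk contMDiff_snd
    exact hψ.holo.comp h1
  · intro x ζ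
    have h1 : HasMFDerivAt 𝓘(ℂ, ℂ) 𝓘(ℂ, ℂ) (fun w : ℂ => -w) ζ (-(1 : ℂ →L[ℂ] ℂ)) := by
      have h2 : HasFDerivAt (fun w : ℂ => -w) (-(1 : ℂ →L[ℂ] ℂ)) ζ := (hasFDerivAt_id ζ).neg
      exact h2.hasMFDerivAt
    have h2 := HasMFDerivAt.comp ζ (g := fun w => ψ w x) (f := fun w : ℂ => -w) (hint x (-ζ)) h1
    refine h2.congr_mfderiv ?_
    ext
    change (-(1 : ℂ)) • (-(Z (ψ (-ζ) x) : E)) = (1 : ℂ) • (Z (ψ (-ζ) x) : E)
    rw [neg_smul, smul_neg, neg_neg]
  · intro t ht x y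
    have := hne t ht x y
    simpa using this

end Vale.Agent.P253.H502
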