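import Vale.Agent.P253.H567.Fin
import Vale.Agent.P253.S445.Nf9

/-!
P253: semigroups of holomorphic self-maps with a compact set which every orbit meets, from the
corresponding statement for one self-map.
-/

open scoped Manifold ContDiff Topology Bundle
open Set Filter Bundle Vale.Agent.P253.R2 Vale.Agent.P253

namespace Vale.Agent.P253.H502

section top

variable {M : Type*} {ρ : ℝ → M → M}

theorem iterate_one (h0 : ∀ x, ρ 0 x = x)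
    (hadd : ∀ s t x, 0 ≤ s → 0 ≤ t → ρ (s + t) x = ρ s (ρ t x)) (k : ℕ) (x : M) :
    (ρ 1)^[k] x = ρ k x := by
  induction k with
  | zero => simp [h0]
  | succ k ih =>
    rw [Function.iterate_succ_apply', ih, ← hadd 1 k x zero_le_one (Nat.cast_nonneg k)]
    congr 1
    push_cast
    ring

theorem eq_iterate_floor (h0 : ∀ x, ρ 0 x = x)
    (hadd : ∀ s t x, 0 ≤ s → 0 ≤ t → ρ (s + t) x = ρ s (ρ t x)) {t : ℝ} (ht : 0 ≤ t) (x : M) :
    ρ t x = (ρ 1)^[⌊t⌋₊] (ρ (t - ⌊t⌋₊) x) := by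
  have h1 : 0 ≤ t - ⌊t⌋₊ := sub_nonneg.2 (Nat.floor_le ht)
  rw [iterate_one h0 hadd, ← hadd _ _ x (Nat.cast_nonneg _) h1]
  congr 1
  ring

variable [TopologicalSpace M]

theorem isCompact_sweep (hcont : ContinuousOn (fun q : ℝ × M => ρ q.1 q.2) {q | 0 ≤ q.1})
    {C : Set M} (hC : IsCompact C) :
    IsCompact ((fun q : ℝ × M => ρ q.1 q.2) '' (Icc 0 1 ×ˢ C)) := by
  refine (isCompact_Icc.prod hC).image_of_continuousOn (hcont.mono ?_)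
  rintro ⟨t, x⟩ ⟨ht, -⟩
  exact ht.1

/-- if a compact set meets every orbit of the semigroup, a compact set meets every orbit of the
time one map -/
theorem exists_meet (h0 : ∀ x, ρ 0 x = x)
    (hadd : ∀ s t x, 0 ≤ s → 0 ≤ t → ρ (s + t) x = ρ s (ρ t x))
    (hcont : ContinuousOn (fun q : ℝ × M => ρ q.1 q.2) {q | 0 ≤ q.1}) {K : Set M}
    (hK : IsCompact K) (hmeet : ∀ x, ∃ t : ℝ, 0 ≤ t ∧ ρ t x ∈ K) :
    ∃ K' : Set M, IsCompact K' ∧ ∀ x, ∃ k : ℕ, (ρ 1)^[k] x ∈ K' := by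
  refine ⟨_, isCompact_sweep hcont hK, fun x => ?_⟩
  obtain ⟨t, ht, hx⟩ := hmeet x
  refine ⟨⌈t⌉₊, ?_⟩
  have h1 : t ≤ ⌈t⌉₊ := Nat.le_ceil t
  have h2 : (⌈t⌉₊ : ℝ) < t + 1 := Nat.ceil_lt_add_one ht
  refine ⟨((⌈t⌉₊ : ℝ) - t, ρ t x), ⟨⟨by linarith, by linarith⟩, hx⟩, ?_⟩
  simp only
  rw [iterate_one h0 hadd, ← hadd _ _ x (by linarith) ht]
  congr 1
  ring

/-- uniform convergence on compact sets of the iterates of the time one map gives the convergence of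
the semigroup -/
theorem convergesTo_of_iterate [LocallyCompactSpace M] (h0 : ∀ x, ρ 0 x = x)
    (hadd : ∀ s t x, 0 ≤ s → 0 ≤ t → ρ (s + t) x = ρ s (ρ t x))
    (hcont : ContinuousOn (fun q : ℝ × M => ρ q.1 q.2) {q | 0 ≤ q.1}) {p : M}
    (hC : ∀ C : Set M, IsCompact C → ∀ W ∈ 𝓝 p, ∀ᶠ k : ℕ in atTop, ∀ x ∈ C, (ρ 1)^[k] x ∈ W) :
    (∀ C : Set M, IsCompact C → ∀ W ∈ 𝓝 p, ∀ᶠ t : ℝ in atTop, ∀ x ∈ C, ρ t x ∈ W) ∧
      S445.ConvergesTo ρ p := by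
  have key : ∀ C : Set M, IsCompact C → ∀ W ∈ 𝓝 p, ∀ᶠ t : ℝ in atTop, ∀ x ∈ C, ρ t x ∈ W := by
    intro C hCc W hW
    have h1 := hC _ (isCompact_sweep hcont hCc) W hW
    have h2 := (tendsto_nat_floor_atTop (α := ℝ)).eventually h1
    filter_upwards [h2, eventually_ge_atTop (0 : ℝ)] with t ht ht0 x hx
    rw [eq_iterate_floor h0 hadd ht0 x]
    refine ht _ ⟨(t - ⌊t⌋₊, x), ⟨⟨sub_nonneg.2 (Nat.floor_le ht0), ?_⟩, hx⟩, rfl⟩
    have := Nat.lt_floor_add_one t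
    linarith
  refine ⟨key, fun x => ?_, fun W hW => ?_⟩
  · rw [tendsto_def]
    intro W hW
    filter_upwards [key {x} isCompact_singleton W hW] with t ht
    exact ht x rfl
  · obtain ⟨U, hU, hp⟩ := exists_compact_mem_nhds p
    exact ⟨U, hp, key U hU W hW⟩

/-- from neighbourhoods of points to compact sets -/
theorem eventually_compact {f : M → M} {p : M}
    (h : ∀ x, ∀ W ∈ 𝓝 p, ∃ U ∈ 𝓝 x, ∀ᶠ n : ℕ in atTop, ∀ y ∈ U, f^[n] y ∈ W) {C : Set M}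
    (hC : IsCompact C) {W : Set M} (hW : W ∈ 𝓝 p) :
    ∀ᶠ n : ℕ in atTop, ∀ y ∈ C, f^[n] y ∈ W := by
  refine hC.induction_on (p := fun C => ∀ᶠ n : ℕ in atTop, ∀ y ∈ C, f^[n] y ∈ W) ?_ ?_ ?_ ?_
  · exact Eventually.of_forall fun n y hy => hy.elim
  · intro s t hst ht
    filter_upwards [ht] with n hn y hy
    exact hn y (hst hy)
  · intro s t hs ht
    filter_upwards [hs, ht] with n h1 h2 y hy
    exact hy.elim (h1 y) (h2 y)
  · intro x _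
    obtain ⟨U, hU, h'⟩ := h x W hW
    exact ⟨U, mem_nhdsWithin_of_mem_nhds hU, h'⟩

end top

section main

variable (E : Type*) [NormedAddCommGroup E] [NormedSpace ℂ E] (M : Type*) [TopologicalSpace M]
  [ChartedSpace E M]

/-- every holomorphic self-map of `M` such that a compact set meets all its forward orbits has a
fixed point to which its iterates converge uniformly on compact sets -/
def Attracts : Prop :=
  ∀ f : M → M, MDifferentiable 𝓘(ℂ, E) 𝓘(ℂ, E) f →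
    (∃ K : Set M, IsCompact K ∧ ∀ x, ∃ k : ℕ, f^[k] x ∈ K) →
    ∃ p, f p = p ∧ ∀ C : Set M, IsCompact C → ∀ W ∈ 𝓝 p, ∀ᶠ k : ℕ in atTop, ∀ x ∈ C, f^[k] x ∈ W

variable {E M}

/-- the same for semigroups -/
theorem semigroup_of_attract [LocallyCompactSpace M] [T2Space M] (hA : Attracts E M)
    {ρ : ℝ → M → M} (hρ : H567.IsHolSemigroup E ρ) {K : Set M} (hK : IsCompact K)
    (hmeet : ∀ x, ∃ t : ℝ, 0 ≤ t ∧ ρ t x ∈ K) :
    ∃ p, (∀ t, 0 ≤ t → ρ t p = p) ∧ S445.ConvergesTo ρ p ∧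
      ∀ C : Set M, IsCompact C → ∀ W ∈ 𝓝 p, ∀ᶠ t : ℝ in atTop, ∀ x ∈ C, ρ t x ∈ W := by
  obtain ⟨K', hK', hm⟩ := exists_meet hρ.zero hρ.add hρ.cont hK hmeet
  obtain ⟨p, -, hC⟩ := hA (ρ 1) (hρ.holo 1 zero_le_one) ⟨K', hK', hm⟩
  obtain ⟨h1, h2⟩ := convergesTo_of_iterate hρ.zero hρ.add hρ.cont hC
  refine ⟨p, fun t ht => ?_, h2, h1⟩
  have h3 : Tendsto (fun s : ℝ => ρ t (ρ s p)) atTop (𝓝 (ρ t p)) :=
    ((hρ.holo t ht).continuous.tendsto p).comp (h2.1 p)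
  have h4 : Tendsto (fun s : ℝ => ρ t (ρ s p)) atTop (𝓝 p) := by
    have h5 := (h2.1 p).comp (tendsto_atTop_add_const_left atTop t tendsto_id)
    refine h5.congr' ?_
    filter_upwards [eventually_ge_atTop (0 : ℝ)] with s hs
    exact hρ.add t s p ht hs
  exact tendsto_nhds_unique h3 h4

/-- a compact set which every orbit of a convergent semigroup meets -/
theorem exists_meet_of_converges [LocallyCompactSpace M] {ρ : ℝ → M → M} {p : M}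
    (hp : S445.ConvergesTo ρ p) :
    ∃ K : Set M, IsCompact K ∧ ∀ x, ∃ t : ℝ, 0 ≤ t ∧ ρ t x ∈ K := by
  obtain ⟨U, hU, hpU⟩ := exists_compact_mem_nhds p
  refine ⟨U, hU, fun x => ?_⟩
  obtain ⟨t, h1, h2⟩ := (((hp.1 x).eventually hpU).and (eventually_ge_atTop (0 : ℝ))).exists
  exact ⟨t, h2, h1⟩

end main

section final

variable {E : Type*} [NormedAddCommGroup E] [NormedSpace ℂ E] [FiniteDimensional ℂ E]
  {M : Type*} [MetricSpace M] [ChartedSpace E M] [IsManifold 𝓘(ℂ, E) 1 M]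
  [IsManifold 𝓘(ℝ, E) ∞ M]

theorem main_semigroup [LocallyCompactSpace M] (hA : Attracts E M) (hExt : H567.HasSExt E M)
    {ρ : ℝ → M → M} (hρ : H567.IsHolSemigroup E ρ)
    (hmeet : ∃ K : Set M, IsCompact K ∧ ∀ x, ∃ t : ℝ, 0 ≤ t ∧ ρ t x ∈ K) :
    ∃ p, (∀ t, 0 ≤ t → ρ t p = p) ∧ S445.ConvergesTo ρ p ∧
      (∀ C : Set M, IsCompact C → ∀ W ∈ 𝓝 p, ∀ᶠ t : ℝ in atTop, ∀ x ∈ C, ρ t x ∈ W) ∧
      ∃ F : M ≃ₘ^1⟮𝓘(ℂ, E), 𝓘(ℂ, E)⟯ E, F p = 0 ∧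
        (∀ v : E, (mfderiv 𝓘(ℂ, E) 𝓘(ℂ, E) F p : E → E) v = v) := by
  obtain ⟨K, hK, hm⟩ := hmeet
  obtain ⟨p, h1, h2, h3⟩ := semigroup_of_attract hA hρ hK hm
  obtain ⟨ψ, hψ, he⟩ := hExt ρ hρ
  exact ⟨p, h1, h2, h3, S445.main_conv hψ he h2⟩

/-- `M` is biholomorphic to `ℂⁿ` iff it has a semigroup with a compact set which every orbit
meets -/
theorem iff_semigroup [LocallyCompactSpace M] (hA : Attracts E M) (hExt : H567.HasSExt E M) :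
    Nonempty (M ≃ₘ^1⟮𝓘(ℂ, E), 𝓘(ℂ, E)⟯ E) ↔
      ∃ ρ : ℝ → M → M, H567.IsHolSemigroup E ρ ∧
        ∃ K : Set M, IsCompact K ∧ ∀ x, ∃ t : ℝ, 0 ≤ t ∧ ρ t x ∈ K := by
  rw [S445.iff_conv hExt.toS445]
  constructor
  · rintro ⟨ρ, hρ, p, hp⟩
    exact ⟨ρ, hρ, exists_meet_of_converges hp⟩
  · rintro ⟨ρ, hρ, K, hK, hm⟩
    obtain ⟨p, -, h2, -⟩ := semigroup_of_attract hA hρ hK hm
    exact ⟨ρ, hρ, p, h2⟩

end final

end Vale.Agent.P253.H502
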