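import Vale.Agent.P253.MathlibUsed

/-!
P253: maps with differential of norm at most `C` on an open set are Lipschitz there with constant `C`,
for points whose short connecting paths stay in this set.
-/

open scoped Manifold ContDiff Topology Bundle ENNReal
open Set Metric Filter Bundle MeasureTheory Manifold

noncomputable section

namespace Vale.Agent.P253.H502

variable {E : Type*} [NormedAddCommGroup E] [NormedSpace ℝ E]
  {M : Type*} [MetricSpace M] [ChartedSpace E M] [IsManifold 𝓘(ℝ, E) 1 M]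
  [RiemannianBundle (fun x : M => TangentSpace 𝓘(ℝ, E) x)]
  [IsRiemannianManifold 𝓘(ℝ, E) M]

omit [IsManifold 𝓘(ℝ, E) 1 M] in
theorem edist_le_on_mul {f : M → M} {Ω : Set M} {C : ℝ≥0∞} (hC : C ≠ ⊤) (hΩ : IsOpen Ω)
    (hf : ContMDiffOn 𝓘(ℝ, E) 𝓘(ℝ, E) 1 f Ω)
    (h : ∀ x ∈ Ω, ∀ v : TangentSpace 𝓘(ℝ, E) x,
      ‖(mfderiv 𝓘(ℝ, E) 𝓘(ℝ, E) f x v : TangentSpace 𝓘(ℝ, E) (f x))‖ₑ ≤ C * ‖v‖ₑ) {x y : M}
    {r : ℝ} (hr : ball x r ⊆ Ω) (hxy : dist x y < r) :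
    edist (f x) (f y) ≤ C * edist x y := by
  have key : ∀ s : ℝ≥0∞, edist x y < s → edist (f x) (f y) ≤ C * s := by
    intro s hs
    rw [IsRiemannianManifold.out (I := 𝓘(ℝ, E)) (f x) (f y)]
    have hxy' : edist x y < min s (ENNReal.ofReal r) := by
      refine lt_min hs ?_
      rw [edist_dist]
      exact ENNReal.ofReal_lt_ofReal_iff_of_nonneg dist_nonneg |>.2 hxy
    rw [IsRiemannianManifold.out (I := 𝓘(ℝ, E)) x y] at hxy'
    obtain ⟨γ, h0, h1, hγ, hlen⟩ := exists_lt_of_riemannianEDist_lt hxy'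
    have hmem : ∀ t ∈ Icc (0:ℝ) 1, γ t ∈ Ω := by
      intro t ht
      apply hr
      have h3 := riemannianEDist_le_pathELength (I := 𝓘(ℝ, E)) (γ := γ) (a := 0) (b := t)
        (x := x) (y := γ t) (hγ.mono (Icc_subset_Icc_right ht.2)) h0 rfl ht.1
      rw [← IsRiemannianManifold.out (I := 𝓘(ℝ, E)) x (γ t)] at h3
      have h4 : edist x (γ t) < ENNReal.ofReal r :=
        (h3.trans (pathELength_mono le_rfl ht.2)).trans_lt (hlen.trans_le (min_le_right _ _))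
      rw [edist_dist, ENNReal.ofReal_lt_ofReal_iff_of_nonneg dist_nonneg] at h4
      rw [mem_ball, dist_comm]
      exact h4
    have h2 := riemannianEDist_le_pathELength (I := 𝓘(ℝ, E)) (γ := f ∘ γ) (a := 0) (b := 1)
      (x := f x) (y := f y) (hf.comp hγ hmem) (by simp [h0]) (by simp [h1]) zero_le_one
    refine h2.trans (le_trans ?_ (mul_le_mul_right (hlen.le.trans (min_le_left _ _)) C))
    rw [pathELength_eq_lintegral_mfderivWithin_Icc, pathELength_eq_lintegral_mfderivWithin_Icc,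
      ← lintegral_const_mul' _ _ hC]
    refine setLIntegral_mono' measurableSet_Icc fun t ht => ?_
    have h3 : mfderivWithin 𝓘(ℝ, ℝ) 𝓘(ℝ, E) (f ∘ γ) (Icc 0 1) t =
        (mfderiv 𝓘(ℝ, E) 𝓘(ℝ, E) f (γ t)).comp
          (mfderivWithin 𝓘(ℝ, ℝ) 𝓘(ℝ, E) γ (Icc 0 1) t) := by
      apply mfderiv_comp_mfderivWithin
      · exact ((hf (γ t) (hmem t ht)).contMDiffAt (hΩ.mem_nhds (hmem t ht))).mdifferentiableAt
          (by simp)
      · exact (hγ.mdifferentiableOn (by simp)) t ht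
      · rw [uniqueMDiffWithinAt_iff_uniqueDiffWithinAt]
        exact uniqueDiffOn_Icc zero_lt_one t ht
    have h4 : mfderivWithin 𝓘(ℝ, ℝ) 𝓘(ℝ, E) (f ∘ γ) (Icc 0 1) t 1 =
        (mfderiv 𝓘(ℝ, E) 𝓘(ℝ, E) f (γ t)) (mfderivWithin 𝓘(ℝ, ℝ) 𝓘(ℝ, E) γ (Icc 0 1) t 1) :=
      congr($h3 1)
    rw [h4]
    exact h _ (hmem t ht) _
  have hT : Filter.Tendsto (fun s => C * s) (𝓝[>] edist x y) (𝓝 (C * edist x y)) :=
    ((ENNReal.continuous_const_mul hC).tendsto _).mono_left nhdsWithin_le_nhds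
  have : (𝓝[>] edist x y).NeBot := nhdsGT_neBot_of_exists_gt ⟨⊤, (edist_ne_top x y).lt_top⟩
  exact ge_of_tendsto hT (by filter_upwards [self_mem_nhdsWithin] with s hs using key s hs)

/-- the same with real numbers -/
theorem dist_le_on_mul {f : M → M} {Ω : Set M} {L : ℝ} (hL : 0 ≤ L) (hΩ : IsOpen Ω)
    (hf : ContMDiffOn 𝓘(ℝ, E) 𝓘(ℝ, E) 1 f Ω)
    (h : ∀ x ∈ Ω, ∀ v : TangentSpace 𝓘(ℝ, E) x,
      ‖(mfderiv 𝓘(ℝ, E) 𝓘(ℝ, E) f x v : TangentSpace 𝓘(ℝ, E) (f x))‖ ≤ L * ‖v‖) {x y : M}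
    {r : ℝ} (hr : ball x r ⊆ Ω) (hxy : dist x y < r) :
    dist (f x) (f y) ≤ L * dist x y := by
  have h1 := edist_le_on_mul (C := ENNReal.ofReal L) ENNReal.ofReal_ne_top hΩ hf
    (fun z hz v => by
      rw [← ofReal_norm, ← ofReal_norm, ← ENNReal.ofReal_mul hL]
      exact ENNReal.ofReal_le_ofReal (h z hz v)) hr hxy
  rwa [edist_dist, edist_dist, ← ENNReal.ofReal_mul hL,
    ENNReal.ofReal_le_ofReal_iff (mul_nonneg hL dist_nonneg)] at h1

end Vale.Agent.P253.H502
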