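import Vale.Agent.P253.MathlibUsed

/-!
P253: maps which do not increase the lengths of tangent vectors do not increase distances.
-/

open scoped Manifold ContDiff Topology Bundle ENNReal
open Set Metric Filter Bundle MeasureTheory Manifold

noncomputable section

namespace Vale.Agent.P253.H502

variable {E : Type*} [NormedAddCommGroup E] [NormedSpace ℝ E]
  {M : Type*} [MetricSpace M] [ChartedSpace E M] [IsManifold 𝓘(ℝ, E) 1 M]
  [RiemannianBundle (fun x : M => TangentSpace 𝓘(ℝ, E) x)]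
  [IsRiemannianManifold 𝓘(ℝ, E) M]

theorem edist_le_of_mfderiv {f : M → M} (hf : ContMDiff 𝓘(ℝ, E) 𝓘(ℝ, E) 1 f)
    (h : ∀ (x : M) (v : TangentSpace 𝓘(ℝ, E) x),
      ‖(mfderiv 𝓘(ℝ, E) 𝓘(ℝ, E) f x v : TangentSpace 𝓘(ℝ, E) (f x))‖ₑ ≤ ‖v‖ₑ) (x y : M) :
    edist (f x) (f y) ≤ edist x y := by
  rw [IsRiemannianManifold.out (I := 𝓘(ℝ, E)) x y,
    IsRiemannianManifold.out (I := 𝓘(ℝ, E)) (f x) (f y)]
  refine le_of_forall_gt fun r hr => ?_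
  obtain ⟨γ, h0, h1, hγ, hlen⟩ := exists_lt_of_riemannianEDist_lt hr
  have h2 := riemannianEDist_le_pathELength (I := 𝓘(ℝ, E)) (γ := f ∘ γ) (a := 0) (b := 1)
    (x := f x) (y := f y) (hf.comp_contMDiffOn hγ) (by simp [h0]) (by simp [h1]) zero_le_one
  refine h2.trans_lt (lt_of_le_of_lt ?_ hlen)
  rw [pathELength_eq_lintegral_mfderivWithin_Icc, pathELength_eq_lintegral_mfderivWithin_Icc]
  refine setLIntegral_mono' measurableSet_Icc fun t ht => ?_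
  have h3 : mfderivWithin 𝓘(ℝ, ℝ) 𝓘(ℝ, E) (f ∘ γ) (Icc 0 1) t =
      (mfderiv 𝓘(ℝ, E) 𝓘(ℝ, E) f (γ t)).comp
        (mfderivWithin 𝓘(ℝ, ℝ) 𝓘(ℝ, E) γ (Icc 0 1) t) := by
    apply mfderiv_comp_mfderivWithin
    · exact hf.mdifferentiable (by simp) _
    · exact (hγ.mdifferentiableOn (by simp)) t ht
    · rw [uniqueMDiffWithinAt_iff_uniqueDiffWithinAt]
      exact uniqueDiffOn_Icc zero_lt_one t ht
  have h4 : mfderivWithin 𝓘(ℝ, ℝ) 𝓘(ℝ, E) (f ∘ γ) (Icc 0 1) t 1 =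
      (mfderiv 𝓘(ℝ, E) 𝓘(ℝ, E) f (γ t)) (mfderivWithin 𝓘(ℝ, ℝ) 𝓘(ℝ, E) γ (Icc 0 1) t 1) :=
    congr($h3 1)
  rw [h4]
  exact h _ _

end Vale.Agent.P253.H502
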