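import Vale.Agent.P253.H502.Var
import Vale.Agent.P253.H502.Lip

/-!
P253: if the Lie derivative of the metric along `-JX` is nonnegative, its flow does not increase
distances backwards in time.
-/

open scoped Manifold ContDiff Topology Bundle ENNReal
open Set Metric Complex Filter Bundle IsManifold Manifold Vale.Agent.P253.Mfd

set_option maxSynthPendingDepth 3
set_option linter.unusedSectionVars false

noncomputable section

namespace Vale.Agent.P253.H502

variable {E : Type*} [NormedAddCommGroup E] [NormedSpace ℂ E] [FiniteDimensional ℂ E]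
  {M : Type*} [MetricSpace M] [ChartedSpace E M]
  [IsManifold 𝓘(ℂ, E) 1 M] [IsManifold 𝓘(ℝ, E) ∞ M]

/-- holomorphic maps are smooth for the underlying real structures -/
theorem contMDiff_real {f : M → M} (hf : MDifferentiable 𝓘(ℂ, E) 𝓘(ℂ, E) f) :
    ContMDiff 𝓘(ℝ, E) 𝓘(ℝ, E) ∞ f := by
  have hCE : CompleteSpace E := FiniteDimensional.complete ℂ E
  intro x
  rw [contMDiffAt_iff]
  refine ⟨hf.continuous.continuousAt, ?_⟩
  set e := chartAt E x with he
  set e' := chartAt E (f x) with he'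
  set U : Set E := e.target ∩ e.symm ⁻¹' (f ⁻¹' e'.source) with hU
  have hUo : IsOpen U :=
    e.continuousOn_symm.isOpen_inter_preimage e.open_target
      (e'.open_source.preimage hf.continuous)
  have hxU : e x ∈ U := ⟨e.map_source (mem_chart_source E x), by
    simp only [mem_preimage]
    rw [e.left_inv (mem_chart_source E x)]
    exact mem_chart_source E (f x)⟩
  have hd : DifferentiableOn ℂ (e' ∘ f ∘ e.symm) U := by
    intro z hz
    have h1 : MDifferentiableAt 𝓘(ℂ, E) 𝓘(ℂ, E) e.symm z :=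
      ((contMDiffOn_symm_of_mem_maximalAtlas
        (chart_mem_maximalAtlas (I := 𝓘(ℂ, E)) (n := 1) x)).contMDiffAt
        (e.open_target.mem_nhds hz.1)).mdifferentiableAt (by simp)
    have h2 : MDifferentiableAt 𝓘(ℂ, E) 𝓘(ℂ, E) e' (f (e.symm z)) :=
      ((contMDiffOn_of_mem_maximalAtlas
        (chart_mem_maximalAtlas (I := 𝓘(ℂ, E)) (n := 1) (f x))).contMDiffAt
        (e'.open_source.mem_nhds hz.2)).mdifferentiableAt (by simp)
    have h3 : MDifferentiableAt 𝓘(ℂ, E) 𝓘(ℂ, E) (e' ∘ f ∘ e.symm) z :=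
      h2.comp z ((hf (e.symm z)).comp z h1)
    exact h3.differentiableAt.differentiableWithinAt
  have h4 : ContDiffAt ℝ ∞ (e' ∘ f ∘ e.symm) (e x) :=
    ((contDiffOn_of_differentiableOn_complex hUo hd).restrict_scalars ℝ).contDiffAt
      (hUo.mem_nhds hxU)
  simp only [extChartAt, mfld_simps]
  exact h4.contDiffWithinAt

/-- the real differential of a self-map, as an endomorphism of the model space -/
def dM (f : M → M) (x : M) : E →L[ℝ] E := mfderiv 𝓘(ℝ, E) 𝓘(ℝ, E) f x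

theorem dM_comp {f g : M → M} (hf : ContMDiff 𝓘(ℝ, E) 𝓘(ℝ, E) ∞ f)
    (hg : ContMDiff 𝓘(ℝ, E) 𝓘(ℝ, E) ∞ g) (x : M) (w : E) :
    dM (E := E) (g ∘ f) x w = dM g (f x) (dM f x w) := by
  have h := mfderiv_comp (I := 𝓘(ℝ, E)) (I' := 𝓘(ℝ, E)) (I'' := 𝓘(ℝ, E)) x
    ((hg (f x)).mdifferentiableAt (by simp)) ((hf x).mdifferentiableAt (by simp))
  exact congrArg (fun T : E →L[ℝ] E => T w) h

theorem dM_id (x : M) (w : E) : dM (E := E) (id : M → M) x w = w := by
  have h := mfderiv_id (I := 𝓘(ℝ, E)) (M := M) (x := x)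
  exact congrArg (fun T : E →L[ℝ] E => T w) h

variable [RiemannianBundle (fun x : M => TangentSpace 𝓘(ℝ, E) x)]
  [IsContMDiffRiemannianBundle 𝓘(ℝ, E) ∞ E (fun x : M => TangentSpace 𝓘(ℝ, E) x)]
  {ρ : ℝ → M → M} {Φ : ℝ → M → M}

variable (E) in
/-- the Lie derivative of the metric along `-JX` is nonnegative -/
def BotNN (ρ : ℝ → M → M) : Prop :=
  ∀ e ∈ maximalAtlas 𝓘(ℂ, E) 1 M, ∀ z ∈ e.target, ∀ a, 0 ≤ Sfun (chartG e) (vF ρ e) z a

theorem innerAt_chart {e : OpenPartialHomeomorph M E} (he : e ∈ maximalAtlas 𝓘(ℂ, E) 1 M)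
    {x : M} (hx : x ∈ e.source) (w : E) :
    chartG e (e x) (dchart e x w) (dchart e x w) = innerAt (E := E) x w w := by
  have her := mem_maximalAtlas_real he
  have h1 : (dsymm e (e x)).comp (dchart e x) = ContinuousLinearMap.id ℝ E :=
    (mdifferentiable_chart her).symm_comp_deriv hx
  have h2 : dsymm e (e x) (dchart e x w) = w := congrArg (fun T : E →L[ℝ] E => T w) h1
  rw [chartG_eq_innerAt, h2, e.left_inv hx]

theorem local_step (hK : IsKahler E M) (hρ : IsHolIsomFlow E ρ) (hS : BotNN E ρ)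
    (hΦ0 : ∀ x, Φ 0 x = x)
    (hΦ : ∀ x, IsMIntegralCurve (I := 𝓘(ℝ, E)) (fun t => Φ t x) (W ρ)) (x₀ : M) :
    ∃ δ > 0, ∃ V ∈ 𝓝 x₀, ∀ x ∈ V, ∀ t, |t| < δ → t ≤ 0 → ∀ w : E,
      innerAt (E := E) (Φ t x) (dM (Φ t) x w) (dM (Φ t) x w) ≤ innerAt (E := E) x w w := by
  have he : chartAt E x₀ ∈ maximalAtlas 𝓘(ℂ, E) 1 M := chart_mem_maximalAtlas x₀
  set e := chartAt E x₀ with hedef
  have her := mem_maximalAtlas_real he
  have hx₀ : x₀ ∈ e.source := mem_chart_source E x₀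
  have hLK := localKahler_chartG hK he
  obtain ⟨δ, hδ, r, hr, hrU, H, hH, hHd, hvar⟩ := exists_flow_var e.open_target
    (differentiableOn_vF hρ he) (e.map_source hx₀)
  set V := e.source ∩ e ⁻¹' (ball (e x₀) r) with hV
  have hVo : IsOpen V := e.continuousOn.isOpen_inter_preimage e.open_source isOpen_ball
  have hform : ∀ x ∈ V, ∀ t ∈ Ioo (-δ) δ, Φ t x = e.symm (H t (e x)) := by
    intro x hx t ht
    obtain ⟨h0, h1⟩ := hH (e x) hx.2
    have h2 : IsMIntegralCurveOn (I := 𝓘(ℝ, E)) (fun t => e.symm (H t (e x))) (W ρ)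
        (Ioo (-δ) δ) := by
      intro t ht
      obtain ⟨h2, h3⟩ := h1 t ht
      exact (IntegralCurve.of_chart hρ he h3 h2).hasMFDerivWithinAt
    exact isMIntegralCurveOn_Ioo_eqOn_of_contMDiff_boundaryless (t₀ := 0)
      ⟨by linarith only [hδ], by linarith only [hδ]⟩ (contMDiff_W hρ)
      ((hΦ x).isMIntegralCurveOn _) h2 (by simp only [hΦ0, h0, e.left_inv hx.1]) ht
  refine ⟨δ, hδ, V, hVo.mem_nhds ⟨hx₀, mem_ball_self hr⟩, fun x hx t ht ht0 w => ?_⟩
  have ht' : t ∈ Ioo (-δ) δ := abs_lt.1 ht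
  have h0' : (0:ℝ) ∈ Ioo (-δ) δ := ⟨by linarith only [hδ], hδ⟩
  obtain ⟨h0, h1⟩ := hH (e x) hx.2
  have htgt : H t (e x) ∈ e.target := (h1 t ht').1
  -- the differential of the flow in the chart
  have hmd : HasMFDerivAt 𝓘(ℝ, E) 𝓘(ℝ, E) e x (dchart e x) :=
    (((contMDiffOn_of_mem_maximalAtlas her).contMDiffAt
      (e.open_source.mem_nhds hx.1)).mdifferentiableAt (by simp)).hasMFDerivAt
  have hHf : HasFDerivAt (H t) (fderiv ℝ (H t) (e x)) (e x) := by
    have h2 : DifferentiableAt ℂ (H t) (e x) :=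
      ((hHd t ht') (e x) hx.2).differentiableAt (isOpen_ball.mem_nhds hx.2)
    exact (h2.hasFDerivAt.restrictScalars ℝ).differentiableAt.hasFDerivAt
  have hms : HasMFDerivAt 𝓘(ℝ, E) 𝓘(ℝ, E) e.symm (H t (e x))
      (mfderiv 𝓘(ℝ, E) 𝓘(ℝ, E) e.symm (H t (e x))) :=
    (((contMDiffOn_symm_of_mem_maximalAtlas her).contMDiffAt
      (e.open_target.mem_nhds htgt)).mdifferentiableAt (by simp)).hasMFDerivAt
  let L : E →L[ℝ] E := (dsymm e (H t (e x))).comp ((fderiv ℝ (H t) (e x)).comp (dchart e x))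
  have hcomp1 := HasMFDerivAt.comp x (g := H t) (f := e) hHf.hasMFDerivAt hmd
  have hcomp : HasMFDerivAt 𝓘(ℝ, E) 𝓘(ℝ, E) (e.symm ∘ (H t ∘ e)) x L :=
    HasMFDerivAt.comp x (g := e.symm) (f := H t ∘ e) hms hcomp1
  have hev : Φ t =ᶠ[𝓝 x] (e.symm ∘ (H t ∘ e)) := by
    filter_upwards [hVo.mem_nhds hx] with y hy
    exact hform y hy t ht'
  have hdM : dM (Φ t) x w = dsymm e (H t (e x)) (fderiv ℝ (H t) (e x) (dchart e x w)) := by
    have h2 := (hcomp.congr_of_eventuallyEq hev).mfderiv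
    exact congrArg (fun T : E →L[ℝ] E => T w) h2
  have hmono := energy_mono hLK (fun z hz a => hS e he z hz a) h1
    (fun a t ht => hvar (e x) hx.2 a t ht) ht' ht0 (dchart e x w)
  have hH0 : fderiv ℝ (H 0) (e x) (dchart e x w) = dchart e x w := by
    have h2 : H 0 =ᶠ[𝓝 (e x)] id := by
      filter_upwards [isOpen_ball.mem_nhds hx.2] with z hz using (hH z hz).1
    rw [h2.fderiv_eq, fderiv_id]
    rfl
  rw [hH0, h0, innerAt_chart he hx.1] at hmono
  rw [hdM, hform x hx t ht']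
  exact hmono

variable [IsRiemannianManifold 𝓘(ℝ, E) M]

/-- lengths of transported vectors do not increase backwards in time -/
theorem length_le (hK : IsKahler E M) (hρ : IsHolIsomFlow E ρ) (hS : BotNN E ρ)
    (hΦ0 : ∀ x, Φ 0 x = x) (hΦadd : ∀ s t x, Φ (s + t) x = Φ s (Φ t x))
    (hΦ : ∀ x, IsMIntegralCurve (I := 𝓘(ℝ, E)) (fun t => Φ t x) (W ρ)) (x : M) {T : ℝ}
    (hT : 0 ≤ T) (w : E) :
    innerAt (E := E) (Φ (-T) x) (dM (Φ (-T)) x w) (dM (Φ (-T)) x w) ≤ innerAt (E := E) x w w := by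
  have hsm : ∀ t, ContMDiff 𝓘(ℝ, E) 𝓘(ℝ, E) ∞ (Φ t) := fun t =>
    contMDiff_real (flow_holo hρ hΦ0 hΦadd hΦ t)
  have hc : Continuous fun τ : ℝ => Φ (-τ) x := (hΦ x).continuous.comp continuous_neg
  refine interval_propagate (P := fun τ => ∀ w : E,
    innerAt (E := E) (Φ (-τ) x) (dM (Φ (-τ)) x w) (dM (Φ (-τ)) x w) ≤ innerAt (E := E) x w w)
    hT (fun τ hτ => ?_) (fun w => ?_) w
  · obtain ⟨δ, hδ, V, hV, hloc⟩ := local_step hK hρ hS hΦ0 hΦ (Φ (-τ) x)
    obtain ⟨ε, hε, hεV⟩ := Metric.eventually_nhds_iff.1 (hc.continuousAt.eventually hV)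
    refine ⟨min ε (δ / 2), by positivity, fun s hs s' hs' hst hs't hss' hPs w => ?_⟩
    have h1 : Φ (-s) x ∈ V := hεV (by rw [Real.dist_eq]; exact hst.trans_le (min_le_left _ _))
    have h2 : |-(s' - s)| < δ := by
      have h3 := hst.trans_le (min_le_right ε (δ / 2))
      have h4 := hs't.trans_le (min_le_right ε (δ / 2))
      rw [abs_lt] at h3 h4 ⊢
      constructor <;> linarith only [h3.1, h3.2, h4.1, h4.2]
    have h3 := hloc _ h1 (-(s' - s)) h2 (by linarith only [hss']) (dM (Φ (-s)) x w)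
    have h4 : Φ (-s') = Φ (-(s' - s)) ∘ Φ (-s) := by
      funext y
      rw [Function.comp_apply, ← hΦadd]
      congr 1
      ring
    have h5 : dM (E := E) (Φ (-s')) x w = dM (Φ (-(s' - s))) (Φ (-s) x) (dM (Φ (-s)) x w) := by
      rw [h4]
      exact dM_comp (hsm _) (hsm _) x w
    have h6 : Φ (-s') x = Φ (-(s' - s)) (Φ (-s) x) := by rw [h4]; rfl
    rw [h5, h6]
    exact h3.trans (hPs w)
  · have h1 : Φ (-0) = id := by
      funext y
      simp [hΦ0]
    have h2 : Φ (-0) x = x := by rw [h1]; rfl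
    rw [h1, dM_id]
    exact le_rfl

/-- the flow does not increase distances backwards in time -/
theorem flow_nonexpansive (hK : IsKahler E M) (hρ : IsHolIsomFlow E ρ) (hS : BotNN E ρ)
    (hΦ0 : ∀ x, Φ 0 x = x) (hΦadd : ∀ s t x, Φ (s + t) x = Φ s (Φ t x))
    (hΦ : ∀ x, IsMIntegralCurve (I := 𝓘(ℝ, E)) (fun t => Φ t x) (W ρ)) {T : ℝ}
    (hT : 0 ≤ T) (x y : M) : dist (Φ (-T) x) (Φ (-T) y) ≤ dist x y := by
  have h1 := edist_le_of_mfderiv (E := E) (f := Φ (-T))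
    ((contMDiff_real (flow_holo hρ hΦ0 hΦadd hΦ (-T))).of_le (by simp)) (fun x v => ?_) x y
  · rw [edist_dist, edist_dist, ENNReal.ofReal_le_ofReal_iff dist_nonneg] at h1
    exact h1
  · have h2 := length_le hK hρ hS hΦ0 hΦadd hΦ x hT v
    rw [enorm_le_iff_norm_le, norm_eq_sqrt_real_inner, norm_eq_sqrt_real_inner]
    exact Real.sqrt_le_sqrt h2

end Vale.Agent.P253.H502
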