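import Vale.Agent.P253.H595.CFlow

/-!
P253: the variational equation for the local flow of a holomorphic vector field, and the
monotonicity of the lengths of the transported vectors.
-/

open scoped Manifold ContDiff Topology
open Set Metric Complex Filter IsManifold Vale.Agent.P253.Mfd

set_option maxSynthPendingDepth 3
set_option linter.unusedSectionVars false

noncomputable section

namespace Vale.Agent.P253.H502

variable {E : Type*} [NormedAddCommGroup E] [NormedSpace ℂ E] [FiniteDimensional ℂ E]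

theorem hasDerivAt_real {f : ℂ → E} {f' : E} {t : ℝ} (h : HasDerivAt f f' (t:ℂ)) :
    HasDerivAt (fun s : ℝ => f s) f' t := by
  have h2 : HasDerivAt (fun s : ℝ => (s:ℂ)) 1 t := (hasDerivAt_id t).ofReal_comp
  have h3 := HasDerivAt.scomp (g₁ := f) t h h2
  rw [one_smul] at h3
  exact h3

/-- local flow of a holomorphic vector field, with the variational equation -/
theorem exists_flow_var {v : E → E} {U : Set E} (hU : IsOpen U) (hv : DifferentiableOn ℂ v U)
    {z₀ : E} (hz₀ : z₀ ∈ U) :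
    ∃ δ > (0:ℝ), ∃ r > (0:ℝ), ball z₀ r ⊆ U ∧ ∃ H : ℝ → E → E,
      (∀ z ∈ ball z₀ r, H 0 z = z ∧
        ∀ t ∈ Ioo (-δ) δ, H t z ∈ U ∧ HasDerivAt (fun s => H s z) (v (H t z)) t) ∧
      (∀ t ∈ Ioo (-δ) δ, DifferentiableOn ℂ (H t) (ball z₀ r)) ∧
      (∀ z ∈ ball z₀ r, ∀ a : E, ∀ t ∈ Ioo (-δ) δ,
        HasDerivAt (fun s => fderiv ℝ (H s) z a) (fderiv ℝ v (H t z) (fderiv ℝ (H t) z a)) t) := by
  have hCE : CompleteSpace E := FiniteDimensional.complete ℂ E
  obtain ⟨δ, hδ, r, hr, hrU, Hc, hd, hin, h0, hder⟩ := H595.exists_complex_flow hU hv hz₀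
  set Ω : Set (ℂ × E) := ball (0:ℂ) δ ×ˢ ball z₀ r with hΩ
  have hΩo : IsOpen Ω := isOpen_ball.prod isOpen_ball
  set F : ℂ × E → E := fun q => Hc q.1 q.2 with hF
  have hsm : ContDiffOn ℂ ∞ F Ω := contDiffOn_of_differentiableOn_complex hΩo hd
  have hball : ∀ t ∈ Ioo (-δ) δ, ((t:ℝ):ℂ) ∈ ball (0:ℂ) δ := by
    intro t ht
    rw [mem_ball_zero_iff, norm_real, Real.norm_eq_abs]
    exact abs_lt.2 ht
  have hFd : ∀ q ∈ Ω, HasFDerivAt F (fderiv ℂ F q) q := fun q hq =>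
    ((hd q hq).differentiableAt (hΩo.mem_nhds hq)).hasFDerivAt
  have hDd : ∀ q ∈ Ω, HasFDerivAt (fderiv ℂ F) (fderiv ℂ (fderiv ℂ F) q) q := fun q hq =>
    (((hsm.fderiv_of_isOpen (m := ∞) hΩo (by simp)).contDiffAt
      (hΩo.mem_nhds hq)).differentiableAt (by simp)).hasFDerivAt
  have hright : ∀ (ζ : ℂ) (z : E), (ζ, z) ∈ Ω →
      HasFDerivAt (Hc ζ) ((fderiv ℂ F (ζ, z)).comp (ContinuousLinearMap.inr ℂ ℂ E)) z := by
    intro ζ z hq
    exact HasFDerivAt.comp z (hFd _ hq) (hasFDerivAt_prodMk_right ζ z)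
  have hreal : ∀ (t : ℝ) (z : E), ((t:ℂ), z) ∈ Ω → ∀ a,
      fderiv ℝ (Hc t) z a = fderiv ℂ F ((t:ℂ), z) (0, a) := by
    intro t z hq a
    rw [((hright t z hq).restrictScalars ℝ).fderiv]
    simp
  refine ⟨δ, hδ, r, hr, hrU, fun t => Hc t, fun z hz => ⟨by simpa using h0 z hz, fun t ht =>
    ⟨hin _ (hball t ht) z hz, hasDerivAt_real (hder z hz _ (hball t ht))⟩⟩, ?_, ?_⟩
  · intro t ht z hz
    exact (hright t z ⟨hball t ht, hz⟩).differentiableAt.differentiableWithinAt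
  · intro z hz a t ht
    have hq : ((t:ℂ), z) ∈ Ω := ⟨hball t ht, hz⟩
    have hmem : Hc t z ∈ U := hin _ (hball t ht) z hz
    have hvd : HasFDerivAt v (fderiv ℂ v (Hc t z)) (Hc t z) :=
      ((hv _ hmem).differentiableAt (hU.mem_nhds hmem)).hasFDerivAt
    have h1 : HasDerivAt (fun ζ : ℂ => fderiv ℂ F (ζ, z) (0, a))
        (fderiv ℂ (fderiv ℂ F) ((t:ℂ), z) (1, 0) (0, a)) (t:ℂ) := by
      have h3 : HasDerivAt (fun ζ : ℂ => (ζ, z)) ((1 : ℂ), (0 : E)) (t:ℂ) :=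
        (hasDerivAt_id _).prodMk (hasDerivAt_const _ _)
      have h4 := HasFDerivAt.comp_hasDerivAt (t:ℂ) (f := fun ζ : ℂ => (ζ, z)) (hDd _ hq) h3
      have h5 := h4.clm_apply (hasDerivAt_const (t:ℂ) ((0 : ℂ), a))
      simp only [map_zero, add_zero, Function.comp_apply] at h5
      exact h5
    have hsymm : IsSymmSndFDerivAt ℂ F ((t:ℂ), z) :=
      (hsm.contDiffAt (hΩo.mem_nhds hq)).isSymmSndFDerivAt (by
        rw [minSmoothness_of_isRCLikeNormedField]
        exact WithTop.coe_le_coe.2 le_top)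
    have h2 : fderiv ℂ (fderiv ℂ F) ((t:ℂ), z) (1, 0) (0, a) =
        fderiv ℂ v (Hc t z) (fderiv ℂ F ((t:ℂ), z) (0, a)) := by
      rw [hsymm (1, 0) (0, a)]
      have h5 : HasFDerivAt (fun z : E => fderiv ℂ F ((t:ℂ), z) (1, 0))
          (((ContinuousLinearMap.apply ℂ E ((1 : ℂ), (0 : E))).comp
            (fderiv ℂ (fderiv ℂ F) ((t:ℂ), z))).comp (ContinuousLinearMap.inr ℂ ℂ E)) z := by
        have h6 := (ContinuousLinearMap.apply ℂ E ((1 : ℂ), (0 : E))).hasFDerivAt.comp ((t:ℂ), z)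
          (hDd _ hq)
        exact HasFDerivAt.comp z h6 (hasFDerivAt_prodMk_right (t:ℂ) z)
      have h6 : (fun w : E => v (Hc t w)) =ᶠ[𝓝 z] (fun w : E => fderiv ℂ F ((t:ℂ), w) (1, 0)) := by
        filter_upwards [isOpen_ball.mem_nhds hz] with w hw
        have h8 : HasDerivAt (fun ζ : ℂ => F (ζ, w)) (fderiv ℂ F ((t:ℂ), w) (1, 0)) (t:ℂ) := by
          have h11 : HasDerivAt (fun ζ : ℂ => (ζ, w)) ((1 : ℂ), (0 : E)) (t:ℂ) :=
            (hasDerivAt_id _).prodMk (hasDerivAt_const _ _)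
          exact HasFDerivAt.comp_hasDerivAt (t:ℂ) (f := fun ζ : ℂ => (ζ, w))
            (hFd _ ⟨hball t ht, hw⟩) h11
        exact (hder w hw _ (hball t ht)).unique h8
      have h7 : HasFDerivAt (fun w : E => v (Hc t w)) ((fderiv ℂ v (Hc t z)).comp
          ((fderiv ℂ F ((t:ℂ), z)).comp (ContinuousLinearMap.inr ℂ ℂ E))) z :=
        HasFDerivAt.comp z hvd (hright t z hq)
      have h8 := (h5.congr_of_eventuallyEq h6).unique h7
      have h9 := congrArg (fun T : E →L[ℂ] E => T a) h8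
      simpa using h9
    rw [h2] at h1
    have h4 : (fun s : ℝ => fderiv ℝ (Hc s) z a) =ᶠ[𝓝 t]
        fun s : ℝ => fderiv ℂ F ((s:ℂ), z) (0, a) := by
      filter_upwards [Ioo_mem_nhds ht.1 ht.2] with s hs using hreal s z ⟨hball s hs, hz⟩ a
    have h5 := (hasDerivAt_real h1).congr_of_eventuallyEq h4
    have h6 : fderiv ℝ v (Hc t z) = (fderiv ℂ v (Hc t z)).restrictScalars ℝ :=
      (hvd.restrictScalars ℝ).fderiv
    rw [hreal t z hq a, h6]
    exact h5

/-- transported vectors do not become longer backwards in time, if `Sfun` is nonnegative -/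
theorem energy_mono {G : E → E →L[ℝ] E →L[ℝ] ℝ} {v : E → E} {U : Set E} (h : LocalKahler G U)
    (hS : ∀ z ∈ U, ∀ a, 0 ≤ Sfun G v z a) {H : ℝ → E → E} {δ : ℝ} {z : E}
    (hH : ∀ t ∈ Ioo (-δ) δ, H t z ∈ U ∧ HasDerivAt (fun s => H s z) (v (H t z)) t)
    (hvar : ∀ a : E, ∀ t ∈ Ioo (-δ) δ,
      HasDerivAt (fun s => fderiv ℝ (H s) z a) (fderiv ℝ v (H t z) (fderiv ℝ (H t) z a)) t)
    {t : ℝ} (ht : t ∈ Ioo (-δ) δ) (ht0 : t ≤ 0) (a : E) :
    G (H t z) (fderiv ℝ (H t) z a) (fderiv ℝ (H t) z a) ≤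
      G (H 0 z) (fderiv ℝ (H 0) z a) (fderiv ℝ (H 0) z a) := by
  have hδ : 0 < δ := by linarith [ht.1, ht.2]
  have hsub : ∀ s ∈ Icc t 0, s ∈ Ioo (-δ) δ := fun s hs =>
    ⟨ht.1.trans_le hs.1, hs.2.trans_lt hδ⟩
  have hder : ∀ s ∈ Icc t 0, HasDerivAt
      (fun s => G (H s z) (fderiv ℝ (H s) z a) (fderiv ℝ (H s) z a))
      (2 * Sfun G v (H s z) (fderiv ℝ (H s) z a)) s := by
    intro s hs
    have hs' := hsub s hs
    exact hasDerivAt_energy (G := G) (v := v) (z := H s z) (h.differentiableAt (hH s hs').1)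
      (fun v w => h.symm _ (hH s hs').1 v w) (hH s hs').2 rfl (hvar a s hs') rfl
  have hmono : MonotoneOn (fun s => G (H s z) (fderiv ℝ (H s) z a) (fderiv ℝ (H s) z a))
      (Icc t 0) := by
    apply monotoneOn_of_deriv_nonneg (convex_Icc t 0)
    · exact fun s hs => (hder s hs).continuousAt.continuousWithinAt
    · intro s hs
      exact (hder s (interior_subset hs)).differentiableAt.differentiableWithinAt
    · intro s hs
      rw [(hder s (interior_subset hs)).deriv]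
      have := hS _ (hH s (hsub s (interior_subset hs))).1 (fderiv ℝ (H s) z a)
      linarith
  exact hmono (left_mem_Icc.2 ht0) (right_mem_Icc.2 ht0) ht0

end Vale.Agent.P253.H502
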